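import Vale.Agent.P073.LOC330.Planes
import Vale.Agent.P073.LOC.Sec2

/-!
# P073, block LOC, choice of the plates: the properties of the plates
-/

namespace Vale.Agent.P073.LOC330

open MeasureTheory Set Filter Topology Metric Vale.Agent.P073.St
open Vale.Agent.P073.SQ (ev)
open Vale.Agent.P073.AB (cl Idx pt edge eInt squ tiles EdgeOf RatGood)
open Vale.Agent.P073.HB (obox GoodSeg vx edgeSum)
open Vale.Agent.P073.LOC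
open Vale.Agent.P073.LOC560 (isOpen_Q1 isBounded_Q1 core_subset tile_edge_subset)
open Vale.Agent.P073.PK
open P073.Plate (pbox prel)
open scoped ENNReal

section

variable {p θ₀ M κ η t₀ lam : ℝ} {β : ℝ≥0∞} {n m n₂ j : ℕ} {f : V → V} {F : V → Mat} {v : V}
    {Λ E K K₀ : Set V} {z' : ℤ} {D : Set V} {δ₁ d e₀ : ℝ} {Le : Finset ((Fin 2 → ℤ) × Fin 2)}
    {I J : Finset (Fin 2 → ℤ)} {b : (Fin 2 → ℤ) → (Fin 2 → ℝ)} {ν : V}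

/-- the points of the fat images are not in `D` -/
theorem PData.notD (h : PData p θ₀ M κ η t₀ lam β n m n₂ j f F v Λ E K K₀ z' D δ₁ d e₀ Le I J b)
    (hn : n + 1 ≤ m) (hm : m ≤ n₂) (hj : 1 ≤ j) (hν : ‖ν‖ ≤ θ₀ / 32) {ζ : Fin 2 → ℤ} (hζ : ζ ∈ J)
    {y : V} (hy : y ∈ Fat v n n₂ j f F ν (mid v n z') z' b ζ) : y ∉ D := by
  refine fat_avoidD h.grd (hn.trans hm) hj rfl hν hζ hy (r := 0) ?_ le_rfl (by rw [dist_self])
  have h1 := h.thin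
  have h2 := h.grd.M0
  have h3 := ms_pos n₂
  have : 0 < M * ms n₂ := by positivity
  linarith

theorem PData.inside (h : PData p θ₀ M κ η t₀ lam β n m n₂ j f F v Λ E K K₀ z' D δ₁ d e₀ Le I J b)
    (hn : n + 1 ≤ m) (hm : m ≤ n₂) (hj : 1 ≤ j) (hν : ‖ν‖ ≤ θ₀ / 32) {ζ : Fin 2 → ℤ}
    (hζ : ζ ∈ J) : Fat v n n₂ j f F ν (mid v n z') z' b ζ ⊆ Λ :=
  fun y hy => h.dset.inside y (h.notD hn hm hj hν hζ hy)

theorem PData.foreign (h : PData p θ₀ M κ η t₀ lam β n m n₂ j f F v Λ E K K₀ z' D δ₁ d e₀ Le I J b)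
    (hn3 : 3 ≤ n) (hn : n + 1 ≤ m) (hm : m ≤ n₂) (hj : 1 ≤ j) (hν : ‖ν‖ ≤ θ₀ / 32)
    (hz1 : 2 ≤ z') (hz2 : z' < 2 ^ n - 3)
    (hv : ∀ i, 0 ≤ v i ∧ v i < 1 / 2 ^ n)
    (hK1 : ∀ e : Idx × Fin 3, (∃ q ∈ tiles Q1 n v, EdgeOf e q) → (edge v e ∩ K).Nonempty →
        f '' edge v e ⊆ K₀)
    (hK2 : ∀ e : Idx × Fin 3, e.1.1 = m → edge v e ⊆ core v n → f '' edge v e ⊆ K₀)
    {ζ : Fin 2 → ℤ} (hζ : ζ ∈ J) {e : Idx × Fin 3} (he : NetE v n m (n₂ + j) e)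
    (hez : ¬ edge v e ⊆ squ v (plq n₂ (pz n n₂ z' ζ))) {x : V} (hx : x ∈ edge v e) :
    f x ∉ Fat v n n₂ j f F ν (mid v n z') z' b ζ := by
  have hav := fat_avoid h.grd (hn.trans hm) hj rfl hν hζ
  rcases he with he | he | he
  · by_cases hne : (edge v e ∩ K).Nonempty
    · exact fun hf => Set.disjoint_left.1 hav hf (hK1 e he hne (mem_image_of_mem f hx))
    · intro hf
      refine h.notD hn hm hj hν hζ hf (h.dset.far x ?_ fun hxK => hne ⟨x, hx, hxK⟩)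
      exact tile_edge_subset isOpen_Q1 isBounded_Q1 he hx
  · exact fun hf => Set.disjoint_left.1 hav hf (hK2 e he.1 he.2 (mem_image_of_mem f hx))
  · obtain ⟨he1, he2, he3, z'', h2, h3, h4⟩ := he
    have heQ : edge v e ⊆ Q1 := he3.trans (core_subset hv)
    rw [pt_two] at h4
    by_cases hzz : z'' = z'
    · subst hzz
      exact foreign_plane h.grd h.le (hn.trans hm) hj rfl (mid_mem hn3 hv hz1 hz2) hν hζ he1 he2
        heQ h4 hez hx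
    · intro hf
      obtain ⟨i, hi⟩ := exists_succAbove he2
      refine h.notD hn hm hj hν hζ hf (h.dset.other x (heQ hx) z'' h2 h3 hzz ?_)
      rw [edge_height hi hx, h4]

theorem PData.disj_ne {z'' : ℤ} {D' : Set V} {δ₁' d' e₀' : ℝ} {Le' : Finset ((Fin 2 → ℤ) × Fin 2)}
    {I' J' : Finset (Fin 2 → ℤ)} {b' : (Fin 2 → ℤ) → (Fin 2 → ℝ)}
    (h : PData p θ₀ M κ η t₀ lam β n m n₂ j f F v Λ E K K₀ z' D δ₁ d e₀ Le I J b)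
    (h' : PData p θ₀ M κ η t₀ lam β n m n₂ j f F v Λ E K K₀ z'' D' δ₁' d' e₀' Le' I' J' b')
    (hn : n + 1 ≤ m) (hm : m ≤ n₂) (hj : 1 ≤ j) (hν : ‖ν‖ ≤ θ₀ / 32)
    (hz1 : 2 ≤ z'') (hz2 : z'' < 2 ^ n - 3) (hne : z'' ≠ z') (hEQ : E ⊆ Q1)
    (hM : ∀ x ∈ E, ‖cl (F x)‖ + ‖ν‖ ≤ M) {ζ ζ' : Fin 2 → ℤ} (hζ : ζ ∈ J) (hζ' : ζ' ∈ J') :
    Disjoint (Fat v n n₂ j f F ν (mid v n z') z' b ζ)
      (Fat v n n₂ j f F ν (mid v n z'') z'' b' ζ') := by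
  rw [Set.disjoint_left]
  intro y hy hy'
  have hb := base_mem h'.grd hζ'
  have h1 := fat_near (F' := fun x => cl (F x)) (ν := ν) (hn.trans hm) hj rfl (hM _ hb)
    (base_cell h'.grd hζ') hy'
  have hMs : 0 ≤ M * ms n₂ := by
    have := h.grd.M0
    have := ms_pos n₂
    positivity
  refine fat_avoidD h.grd (hn.trans hm) hj rfl hν hζ hy h.thin hMs
    (by rw [dist_comm]; exact h1) ?_
  exact h.dset.other _ (hEQ hb) z'' hz1 hz2 hne (sec_same 2 _ _)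

end

/-! ### The set of all the plates -/

/-- the index of the plane -/
def zof (n n₂ : ℕ) (H : ℤ) : ℤ := (H / 2 ^ (n₂ - (n + 1)) - 1) / 2

theorem zof_Hz (n n₂ : ℕ) (z' : ℤ) : zof n n₂ (Hz n n₂ z') = z' := by
  rw [zof, Hz, Int.mul_ediv_cancel _ (by positivity)]
  omega

/-- the base point of a plate -/
noncomputable def βz (v : V) (n n₂ : ℕ) (bs : ℤ → (Fin 2 → ℤ) → (Fin 2 → ℝ)) (z : Fin 3 → ℤ) : V :=
  sec 2 (mid v n (zof n n₂ (z 2))) (bs (zof n n₂ (z 2)) (o2 z))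

theorem βz_pz (v : V) (n n₂ : ℕ) (bs : ℤ → (Fin 2 → ℤ) → (Fin 2 → ℝ)) (z' : ℤ) (ζ : Fin 2 → ℤ) :
    βz v n n₂ bs (pz n n₂ z' ζ) = sec 2 (mid v n z') (bs z' ζ) := by
  rw [βz, pz_two, zof_Hz, o2_pz]

open Classical in
/-- all the plates -/
noncomputable def Jg (v : V) (n n₂ : ℕ) (Js : ℤ → Finset (Fin 2 → ℤ)) : Finset (Fin 3 → ℤ) :=
  (Finset.Ico (2 : ℤ) (2 ^ n - 3)).biUnion fun z' =>
    ((Js z').filter fun ζ => closedBall (ctr (oth 2 v) (ms n₂) ζ) (ms n₂ / 2) ⊆ core2 v n).image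
      (pz n n₂ z')

theorem mem_Jg {v : V} {n n₂ : ℕ} {Js : ℤ → Finset (Fin 2 → ℤ)} {z : Fin 3 → ℤ} :
    z ∈ Jg v n n₂ Js ↔ ∃ (z' : ℤ) (ζ : Fin 2 → ℤ), 2 ≤ z' ∧ z' < 2 ^ n - 3 ∧ ζ ∈ Js z' ∧
      closedBall (ctr (oth 2 v) (ms n₂) ζ) (ms n₂ / 2) ⊆ core2 v n ∧ pz n n₂ z' ζ = z := by
  classical
  simp only [Jg, Finset.mem_biUnion, Finset.mem_Ico, Finset.mem_image, Finset.mem_filter]
  constructor
  · rintro ⟨z', ⟨h1, h2⟩, ζ, ⟨h3, h4⟩, h5⟩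
    exact ⟨z', ζ, h1, h2, h3, h4, h5⟩
  · rintro ⟨z', ζ, h1, h2, h3, h4, h5⟩
    exact ⟨z', ⟨h1, h2⟩, ζ, ⟨h3, h4⟩, h5⟩

/-- the fine edges of all the planes -/
theorem tsum_planes {v : V} {n n₀ n₂ : ℕ} (hn : n + 1 ≤ n₀) (P : Finset (Fin 3 → ℤ))
    (a : Idx × Fin 3 → ℝ≥0∞) :
    ∑' e : {e : Idx × Fin 3 | FineE v n n₀ e ∧ ∀ z ∈ P, ¬ edge v e ⊆ squ v (plq n₂ z)}, a e ≤
      ∑ z' ∈ Finset.Ico (2 : ℤ) (2 ^ n - 3),
        ∑' q : {q : (Fin 2 → ℤ) × Fin 2 | edge v (φe n n₀ z' q) ⊆ core v n ∧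
          ∀ z ∈ P, ¬ edge v (φe n n₀ z' q) ⊆ squ v (plq n₂ z)}, a (φe n n₀ z' q) := by
  set S' : ℤ → Set ((Fin 2 → ℤ) × Fin 2) := fun z' =>
    {q : (Fin 2 → ℤ) × Fin 2 | edge v (φe n n₀ z' q) ⊆ core v n ∧
          ∀ z ∈ P, ¬ edge v (φe n n₀ z' q) ⊆ squ v (plq n₂ z)} with hS'
  have h1 : {e : Idx × Fin 3 | FineE v n n₀ e ∧ ∀ z ∈ P, ¬ edge v e ⊆ squ v (plq n₂ z)} ⊆
      ⋃ z' ∈ Finset.Ico (2 : ℤ) (2 ^ n - 3), φe n n₀ z' '' S' z' := by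
    rintro ⟨⟨n', w⟩, k⟩ ⟨⟨he1, he2, he3, z', h2, h3, h4⟩, h5⟩
    have he1' : n' = n₀ := he1
    subst he1'
    obtain ⟨i, hi⟩ := exists_succAbove he2
    have hi' : k = (2 : Fin 3).succAbove i := hi
    subst hi'
    have h6 : w 2 = Hz n n' z' := (ht_eq_mid hn).1 h4
    have h7 : φe n n' z' (o2 w, i) = ((n', w), (2 : Fin 3).succAbove i) := by
      simp only [φe]
      rw [← h6, emb_o2]
    simp only [mem_iUnion]
    refine ⟨z', Finset.mem_Ico.2 ⟨h2, h3⟩, (o2 w, i), ⟨?_, ?_⟩, h7⟩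
    · rw [h7]; exact he3
    · rw [h7]; exact h5
  refine (ENNReal.tsum_mono_subtype a h1).trans ?_
  refine (ENNReal.tsum_biUnion_le a _ _).trans ?_
  refine Finset.sum_le_sum fun z' _ => ?_
  rw [tsum_image a (φe_injective n n₀ z').injOn]

end Vale.Agent.P073.LOC330
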