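import Vale.Agent.P073.LOC330.Sets

/-!
# P073, block LOC, choice of the plates: the fat images of the plates
-/

namespace Vale.Agent.P073.LOC330

open MeasureTheory Set Filter Topology Metric Vale.Agent.P073.St
open Vale.Agent.P073.SQ (ev)
open Vale.Agent.P073.AB (cl Idx pt edge eInt squ tiles EdgeOf RatGood)
open Vale.Agent.P073.HB (obox GoodSeg vx edgeSum)
open Vale.Agent.P073.LOC
open Vale.Agent.P073.LOC560 (isOpen_Q1 isBounded_Q1 core_subset)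
open Vale.Agent.P073.PK
open P073.Plate (pbox prel)
open scoped ENNReal

/-- The affine map with base point `β`. -/
noncomputable def Amap (f : V → V) (T : V →L[ℝ] V) (ν β x : V) : V := f β + ext3 T ν (x - β)

theorem Amap_sub (f : V → V) (T : V →L[ℝ] V) (ν β x y : V) :
    Amap f T ν β y - Amap f T ν β x = ext3 T ν (y - x) := by
  simp only [Amap]
  rw [add_sub_add_left_eq_sub, ← map_sub]
  congr 1
  abel

theorem Amap_plane (f : V → V) (F' : V → (V →L[ℝ] V)) (ν : V) (c : ℝ) (b u : Fin 2 → ℝ) :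
    Amap f (F' (sec 2 c b)) ν (sec 2 c b) (sec 2 c u) =
      aff (fun u => f (sec 2 c u)) (secD F' 2 c) b u := by
  rw [Amap, aff, sec_sub, ext3_of _ _ (secL_same 2 _), secD, ContinuousLinearMap.comp_apply]

theorem sec_add_smul (c t : ℝ) (u : Fin 2 → ℝ) : sec 2 c u + t • ev 2 = sec 2 (c + t) u := by
  ext i
  rcases Fin.eq_self_or_eq_succAbove 2 i with rfl | ⟨l, rfl⟩
  · rw [Pi.add_apply, sec_same, sec_same]
    simp [ev]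
  · rw [Pi.add_apply, sec_succAbove, sec_succAbove, Pi.smul_apply, ev,
      Pi.single_eq_of_ne (Fin.succAbove_ne 2 l), smul_zero, add_zero]

theorem Amap_plane_add (f : V → V) (F' : V → (V →L[ℝ] V)) (ν : V) (c t : ℝ) (b u : Fin 2 → ℝ) :
    Amap f (F' (sec 2 c b)) ν (sec 2 c b) (sec 2 (c + t) u) =
      aff (fun u => f (sec 2 c u)) (secD F' 2 c) b u + t • ν := by
  rw [← Amap_plane, Amap, Amap, ← sec_add_smul, add_sub_right_comm, ext3_add, add_assoc]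

/-- The plate with index `ζ` in the middle plane `z'`. -/
def pz (n n₂ : ℕ) (z' : ℤ) (ζ : Fin 2 → ℤ) : Fin 3 → ℤ := emb (Hz n n₂ z') ζ

theorem pz_two (n n₂ : ℕ) (z' : ℤ) (ζ : Fin 2 → ℤ) : pz n n₂ z' ζ 2 = Hz n n₂ z' := emb_two _ _

theorem o2_pz (n n₂ : ℕ) (z' : ℤ) (ζ : Fin 2 → ℤ) : o2 (pz n n₂ z' ζ) = ζ := o2_emb _ _

section

variable {n n₂ j : ℕ} {z' : ℤ} {v : V} {f : V → V} {F' : V → (V →L[ℝ] V)} {ν : V} {c θ₀ : ℝ}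

/-- The fat image is thin. -/
theorem fat_subset (hn : n + 1 ≤ n₂) (hj : 1 ≤ j) (hc : c = mid v n z') (hν : ‖ν‖ ≤ θ₀ / 32)
    (b : (Fin 2 → ℤ) → (Fin 2 → ℝ)) (ζ : Fin 2 → ℤ) :
    Amap f (F' (sec 2 c (b ζ))) ν (sec 2 c (b ζ)) ''
        pbox v (plq n₂ (pz n n₂ z' ζ)) (ms (n₂ + j)) (ms (n₂ + j)) ⊆
      cthickening (θ₀ * ms (n₂ + j) / 32)
        (img (fun u => f (sec 2 c u)) (secD F' 2 c) (oth 2 v) (((2 ^ j : ℕ) : ℝ) * ms (n₂ + j))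
          (ms (n₂ + j)) b ζ) := by
  have h0 : ms (n₂ + j) ≤ ms n₂ / 2 := by
    have h1 := ms_add n₂ j
    have h2 : (2 : ℝ) ≤ ((2 ^ j : ℕ) : ℝ) := by
      have : 2 ^ 1 ≤ 2 ^ j := Nat.pow_le_pow_right (by norm_num) hj
      exact_mod_cast this
    have h3 := ms_pos (n₂ + j)
    nlinarith
  rintro _ ⟨x, hx, rfl⟩
  rw [mem_pbox h0, pz_two, ht_Hz hn, ← hc, o2_pz] at hx
  obtain ⟨hx1, hx2⟩ := hx
  rw [ms_add]
  have e1 : x = sec 2 (c + (x 2 - c)) (oth 2 x) := by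
    rw [add_sub_cancel, sec_oth]
  rw [e1, Amap_plane_add]
  refine mem_cthickening_of_dist_le _
    (aff (fun u => f (sec 2 c u)) (secD F' 2 c) (b ζ) (oth 2 x)) _ _ ⟨oth 2 x, hx2, rfl⟩ ?_
  rw [dist_eq_norm, add_sub_cancel_left, norm_smul, Real.norm_eq_abs]
  calc |x 2 - c| * ‖ν‖ ≤ ms (n₂ + j) * (θ₀ / 32) :=
        mul_le_mul hx1 hν (norm_nonneg _) (ms_pos _).le
    _ = _ := by ring

/-- The fat image is near the image of the base point. -/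
theorem fat_near (hn : n + 1 ≤ n₂) (hj : 1 ≤ j) (hc : c = mid v n z') {M : ℝ}
    {b : (Fin 2 → ℤ) → (Fin 2 → ℝ)} {ζ : Fin 2 → ℤ} (hM : ‖F' (sec 2 c (b ζ))‖ + ‖ν‖ ≤ M)
    (hb : b ζ ∈ closedBall (ctr (oth 2 v) (ms n₂) ζ) (ms n₂ / 2)) {y : V}
    (hy : y ∈ Amap f (F' (sec 2 c (b ζ))) ν (sec 2 c (b ζ)) ''
        pbox v (plq n₂ (pz n n₂ z' ζ)) (ms (n₂ + j)) (ms (n₂ + j))) :
    dist y (f (sec 2 c (b ζ))) ≤ M * ms n₂ := by
  have h0 : ms (n₂ + j) ≤ ms n₂ / 2 := by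
    have h1 := ms_add n₂ j
    have h2 : (2 : ℝ) ≤ ((2 ^ j : ℕ) : ℝ) := by
      have : 2 ^ 1 ≤ 2 ^ j := Nat.pow_le_pow_right (by norm_num) hj
      exact_mod_cast this
    have h3 := ms_pos (n₂ + j)
    nlinarith
  obtain ⟨x, hx, rfl⟩ := hy
  rw [mem_pbox h0, pz_two, ht_Hz hn, ← hc, o2_pz] at hx
  obtain ⟨hx1, hx2⟩ := hx
  have hm := ms_pos n₂
  have hm' := ms_pos (n₂ + j)
  have h1 : ‖x - sec 2 c (b ζ)‖ ≤ ms n₂ := by
    rw [pi_norm_le_iff_of_nonneg hm.le]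
    intro i
    rw [Real.norm_eq_abs]
    rcases Fin.eq_self_or_eq_succAbove 2 i with rfl | ⟨l, rfl⟩
    · rw [Pi.sub_apply, sec_same]
      linarith
    · rw [Pi.sub_apply, sec_succAbove]
      have h3 : dist (oth 2 x) (b ζ) ≤ ms n₂ := by
        have h4 := dist_triangle_right (oth 2 x) (b ζ) (ctr (oth 2 v) (ms n₂) ζ)
        have h5 := mem_closedBall.1 hx2
        have h6 := mem_closedBall.1 hb
        linarith
      rw [dist_eq_norm] at h3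
      exact (norm_le_pi_norm (oth 2 x - b ζ) l).trans h3
  rw [dist_eq_norm, Amap, add_sub_cancel_left]
  calc ‖ext3 (F' (sec 2 c (b ζ))) ν (x - sec 2 c (b ζ))‖
      ≤ (‖F' (sec 2 c (b ζ))‖ + ‖ν‖) * ‖x - sec 2 c (b ζ)‖ := ext3_le _ _ _
    _ ≤ M * ms n₂ := mul_le_mul hM h1 (norm_nonneg _) (by
        have := norm_nonneg (F' (sec 2 c (b ζ)))
        have := norm_nonneg ν
        linarith)

end

section grid

variable {n n₂ j : ℕ} {z' : ℤ} {v : V} {f : V → V} {F : V → Mat} {ν : V}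
  {c θ₀ p M κ η t₀ lam δ₁ d e₀ : ℝ} {E : Set V} {D K₀ : Set V}
  {Le : Finset ((Fin 2 → ℤ) × Fin 2)} {I J : Finset (Fin 2 → ℤ)}
  {b : (Fin 2 → ℤ) → (Fin 2 → ℝ)}

/-- the fat image of a plate -/
noncomputable def Fat (v : V) (n n₂ j : ℕ) (f : V → V) (F : V → Mat) (ν : V) (c : ℝ) (z' : ℤ)
    (b : (Fin 2 → ℤ) → (Fin 2 → ℝ)) (ζ : Fin 2 → ℤ) : Set V :=
  Amap f (cl (F (sec 2 c (b ζ)))) ν (sec 2 c (b ζ)) ''
    pbox v (plq n₂ (pz n n₂ z' ζ)) (ms (n₂ + j)) (ms (n₂ + j))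

variable (h : GrdT (fun u => f (sec 2 c u)) (secD (fun x => cl (F x)) 2 c)
          (sec 2 c ⁻¹' E) ∅ Uq D K₀ p θ₀ M κ η t₀ lam δ₁ d e₀ (ms (n₂ + j)) (2 ^ j)
          (oth 2 v) Le I J b)
include h

theorem base_mem {ζ : Fin 2 → ℤ} (hζ : ζ ∈ J) : sec 2 c (b ζ) ∈ E := h.bE ζ (h.JI hζ)

theorem base_cell {ζ : Fin 2 → ℤ} (hζ : ζ ∈ J) :
    b ζ ∈ closedBall (ctr (oth 2 v) (ms n₂) ζ) (ms n₂ / 2) := by
  have := h.bn ζ (h.JI hζ)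
  rwa [ms_add] at this

theorem cell_Uq {ζ : Fin 2 → ℤ} (hζ : ζ ∈ J) :
    closedBall (ctr (oth 2 v) (ms n₂) ζ) (ms n₂ / 2) ⊆ Uq := by
  have := h.cell_subset (h.JI hζ)
  rw [ms_add] at this
  exact this.trans sdiff_subset

/-- an edge in a plate -/
theorem edge_in (hLe : ∀ q, q ∈ Le ↔ q ∈ edgesIn Uq (oth 2 v) (ms (n₂ + j))) (hn : n + 1 ≤ n₂)
    (hc : c = mid v n z') {ζ : Fin 2 → ℤ} (hζ : ζ ∈ J) {e : Idx × Fin 3} {i : Fin 2}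
    (he : e.1.1 = n₂ + j) (hi : e.2 = (2 : Fin 3).succAbove i)
    (hez : edge v e ⊆ squ v (plq n₂ (pz n n₂ z' ζ))) :
    ht v e.1.1 (e.1.2 2) = c ∧ (o2 e.1.2, i) ∈ Le ∧
      InCell (oth 2 v) (((2 ^ j : ℕ) : ℝ) * ms (n₂ + j)) (ga (oth 2 v) (ms (n₂ + j)))
        (gv (ms (n₂ + j))) (o2 e.1.2, i) ζ := by
  rw [edge_subset_squ hi, pz_two, ht_Hz hn, ← hc, o2_pz, he, ← ms_add n₂ j] at hez
  rw [he]
  refine ⟨hez.1, (hLe _).2 fun t ht' => ?_, hez.2⟩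
  exact (h.cell_subset (h.JI hζ) (hez.2 t ht')).1

theorem own1 (hLe : ∀ q, q ∈ Le ↔ q ∈ edgesIn Uq (oth 2 v) (ms (n₂ + j))) (hn : n + 1 ≤ n₂)
    (hc : c = mid v n z') {ζ : Fin 2 → ℤ} (hζ : ζ ∈ J) {e : Idx × Fin 3}
    (he : e.1.1 = n₂ + j) (he2 : e.2 ≠ 2) (hez : edge v e ⊆ squ v (plq n₂ (pz n n₂ z' ζ))) {x : V}
    (hx : x ∈ edge v e) :
    ‖f x - Amap f (cl (F (sec 2 c (b ζ)))) ν (sec 2 c (b ζ)) x‖ ≤ κ / 2 ^ (n₂ + j) := by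
  obtain ⟨i, hi⟩ := exists_succAbove he2
  obtain ⟨h1, h2, h3⟩ := edge_in h hLe hn hc hζ he hi hez
  obtain ⟨t, ht', rfl⟩ := (mem_edge_plane hi).1 hx
  rw [h1, Amap_plane f (fun x => cl (F x))]
  have h4 := h.own1 hζ h2 h3 ht'
  have e1 : κ / 2 ^ (n₂ + j) = κ * ms (n₂ + j) := by rw [ms]; ring
  rw [e1]
  rw [he]
  exact h4

theorem own2 (hLe : ∀ q, q ∈ Le ↔ q ∈ edgesIn Uq (oth 2 v) (ms (n₂ + j))) (hn : n + 1 ≤ n₂)
    (hc : c = mid v n z') {ζ : Fin 2 → ℤ} (hζ : ζ ∈ J) {e : Idx × Fin 3}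
    (he : e.1.1 = n₂ + j) (he2 : e.2 ≠ 2) (hez : edge v e ⊆ squ v (plq n₂ (pz n n₂ z' ζ))) :
    eInt v e (fun x => ENNReal.ofReal (‖cl (F x) (ev e.2) -
      ext3 (cl (F (sec 2 c (b ζ)))) ν (ev e.2)‖ ^ p)) ≤ ENNReal.ofReal (κ / 2 ^ (n₂ + j)) := by
  obtain ⟨i, hi⟩ := exists_succAbove he2
  obtain ⟨h1, h2, h3⟩ := edge_in h hLe hn hc hζ he hi hez
  have hp0 : 0 ≤ p := by linarith [h.p1]
  have hm := ms_pos (n₂ + j)
  have h4 := h.own2 hζ h2 h3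
  rw [eInt_plane v hi, h1, he]
  have e1 : κ / 2 ^ (n₂ + j) = ms (n₂ + j) * κ := by rw [ms]; ring
  rw [e1, ENNReal.ofReal_mul hm.le]
  refine mul_le_mul' le_rfl ?_
  set m₀ : ℝ≥0∞ := ENNReal.ofReal (ms (n₂ + j)) with hm₀
  have hm0 : m₀ ^ p ≠ 0 := (ENNReal.rpow_pos (ENNReal.ofReal_pos.2 hm) ENNReal.ofReal_ne_top).ne'
  have hmt : m₀ ^ p ≠ ⊤ := ENNReal.rpow_ne_top_of_nonneg hp0 ENNReal.ofReal_ne_top
  rw [← ENNReal.mul_le_mul_iff_right hm0 hmt]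
  refine le_trans (le_of_eq ?_) h4
  rw [← lintegral_const_mul' _ _ hmt]
  refine lintegral_congr fun t => ?_
  have hev : (ev e.2) 2 = 0 := by
    rw [hi, ev, Pi.single_eq_of_ne (Fin.succAbove_ne 2 i).symm]
  rw [ext3_of _ _ hev, hi]
  have e2 : ∀ u : Fin 2 → ℝ, secD (fun x => cl (F x)) 2 c u (gv (ms (n₂ + j)) (o2 e.1.2, i)) =
      ms (n₂ + j) • cl (F (sec 2 c u)) (ev ((2 : Fin 3).succAbove i)) := by
    intro u
    rw [secD, ContinuousLinearMap.comp_apply, secL_gv, map_smul]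
  rw [e2, e2, ← smul_sub, ← ofReal_norm, norm_smul, Real.norm_eq_abs, abs_of_pos hm,
    ENNReal.ofReal_mul hm.le, ENNReal.mul_rpow_of_nonneg _ _ hp0,
    ENNReal.ofReal_rpow_of_nonneg (norm_nonneg _) hp0]

theorem fat_sub_thick (hn : n + 1 ≤ n₂) (hj : 1 ≤ j) (hc : c = mid v n z') (hν : ‖ν‖ ≤ θ₀ / 32)
    (ζ : Fin 2 → ℤ) : Fat v n n₂ j f F ν c z' b ζ ⊆ cthickening (θ₀ * ms (n₂ + j) / 32)
      (img (fun u => f (sec 2 c u)) (secD (fun x => cl (F x)) 2 c) (oth 2 v)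
        (((2 ^ j : ℕ) : ℝ) * ms (n₂ + j)) (ms (n₂ + j)) b ζ) := by
  have _ := h
  exact fat_subset (F' := fun x => cl (F x)) hn hj hc hν b ζ

/-- The image of a foreign edge in the same plane. -/
theorem foreign_plane (hLe : ∀ q, q ∈ Le ↔ q ∈ edgesIn Uq (oth 2 v) (ms (n₂ + j)))
    (hn : n + 1 ≤ n₂) (hj : 1 ≤ j) (hc : c = mid v n z') (hc1 : 0 < c ∧ c < 1)
    (hν : ‖ν‖ ≤ θ₀ / 32) {ζ : Fin 2 → ℤ} (hζ : ζ ∈ J) {e : Idx × Fin 3}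
    (he : e.1.1 = n₂ + j) (he2 : e.2 ≠ 2) (heQ : edge v e ⊆ Q1) (heh : ht v e.1.1 (e.1.2 2) = c)
    (hez : ¬ edge v e ⊆ squ v (plq n₂ (pz n n₂ z' ζ))) {x : V}
    (hx : x ∈ edge v e) : f x ∉ Fat v n n₂ j f F ν c z' b ζ := by
  obtain ⟨i, hi⟩ := exists_succAbove he2
  rw [edge_subset_squ hi, pz_two, ht_Hz hn, ← hc, o2_pz, he, not_and] at hez
  rw [he] at heh
  have h1 := hez heh
  rw [← ms_add n₂ j] at h1
  have h2 : (o2 e.1.2, i) ∈ Le := by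
    refine (hLe _).2 fun t ht' => ?_
    have h3 := heQ ((mem_edge_plane hi).2 ⟨t, ht', rfl⟩)
    rw [he, heh] at h3
    exact (sec_mem_Q1 hc1).1 h3
  obtain ⟨t, ht', rfl⟩ := (mem_edge_plane hi).1 hx
  rw [he, heh]
  exact fun h4 => h.foreignT hζ h2 h1 ht' (fat_sub_thick h hn hj hc hν ζ h4)

theorem fat_avoid (hn : n + 1 ≤ n₂) (hj : 1 ≤ j) (hc : c = mid v n z')
    (hν : ‖ν‖ ≤ θ₀ / 32) {ζ : Fin 2 → ℤ} (hζ : ζ ∈ J) :
    Disjoint (Fat v n n₂ j f F ν c z' b ζ) K₀ :=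
  (h.avoidT hζ).mono_left (fat_sub_thick h hn hj hc hν ζ)

theorem fat_avoidD (hn : n + 1 ≤ n₂) (hj : 1 ≤ j) (hc : c = mid v n z')
    (hν : ‖ν‖ ≤ θ₀ / 32) {ζ : Fin 2 → ℤ} (hζ : ζ ∈ J) {y y' : V}
    (hy : y ∈ Fat v n n₂ j f F ν c z' b ζ) {r : ℝ} (hr : θ₀ * ms (n₂ + j) / 32 + r ≤ e₀)
    (hr0 : 0 ≤ r) (hy' : dist y' y ≤ r) : y' ∉ D := by
  have h1 := fat_sub_thick h hn hj hc hν ζ hy
  have h2 := h.avoidD (h.JI hζ)
  refine Set.disjoint_left.1 h2 ?_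
  have h3 : 0 ≤ θ₀ * ms (n₂ + j) / 32 := by
    have := h.θ0
    have := ms_pos (n₂ + j)
    positivity
  rw [mem_cthickening_iff] at h1 ⊢
  refine (infEDist_le_infEDist_add_edist (y := y)).trans ?_
  refine (add_le_add h1 ?_).trans ((ENNReal.ofReal_add h3 hr0).symm.le.trans
    (ENNReal.ofReal_le_ofReal hr))
  rw [edist_dist]
  exact ENNReal.ofReal_le_ofReal hy'

theorem fat_disj (hn : n + 1 ≤ n₂) (hj : 1 ≤ j) (hc : c = mid v n z')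
    (hν : ‖ν‖ ≤ θ₀ / 32) {ζ ζ' : Fin 2 → ℤ} (hζ : ζ ∈ J) (hζ' : ζ' ∈ J) (hne : ζ ≠ ζ') :
    Disjoint (Fat v n n₂ j f F ν c z' b ζ) (Fat v n n₂ j f F ν c z' b ζ') := by
  have h3 : θ₀ * ms (n₂ + j) / 32 < θ₀ * ms (n₂ + j) / 16 := by
    have := h.θ0
    have := ms_pos (n₂ + j)
    have : 0 < θ₀ * ms (n₂ + j) := by positivity
    linarith
  have h4 : 0 < θ₀ * ms (n₂ + j) / 16 := by
    have := h.θ0
    have := ms_pos (n₂ + j)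
    positivity
  refine (h.disj hζ hζ' hne).mono ?_ ?_
  · exact (fat_sub_thick h hn hj hc hν ζ).trans (cthickening_subset_thickening' h4 h3 _)
  · exact (fat_sub_thick h hn hj hc hν ζ').trans (cthickening_subset_thickening' h4 h3 _)

end grid

end Vale.Agent.P073.LOC330
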