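import Vale.Agent.P073.LOC330.Data

/-!
# P073, block LOC, choice of the plates: the theorem
-/

namespace Vale.Agent.P073.LOC330

open MeasureTheory Set Filter Topology Metric Vale.Agent.P073.St
open Vale.Agent.P073.SQ (ev)
open Vale.Agent.P073.AB (cl Idx pt edge eInt squ tiles EdgeOf RatGood)
open Vale.Agent.P073.HB (obox GoodSeg vx edgeSum)
open Vale.Agent.P073.LOC
open Vale.Agent.P073.LOC560 (isOpen_Q1 isBounded_Q1 core_subset tile_edge_subset)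
open Vale.Agent.P073.PK
open P073.Plate (pbox prel)
open scoped ENNReal

/-! ### The constant `C` -/

/-- the constant of the energies of `f` -/
noncomputable def CL (p : ℝ) (L : V →L[ℝ] V) : ℝ := 2 ^ (p - 1) * (360 * ‖L‖ ^ p + 1)

theorem CL_pos (p : ℝ) (L : V →L[ℝ] V) : 0 < CL p L := by
  unfold CL
  positivity

theorem two_rpow_eq {p : ℝ} : (2 : ℝ≥0∞) ^ (p - 1) = ENNReal.ofReal (2 ^ (p - 1)) := by
  rw [← ENNReal.ofReal_rpow_of_pos (by norm_num)]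
  norm_num

theorem hor_le {p : ℝ} (hp : 0 ≤ p) (L : V →L[ℝ] V) {m : ℕ} {δ : ℝ≥0∞}
    (hδ : δ ≤ ENNReal.ofReal (1 / 2 ^ m)) (i : Fin 3) :
    2 ^ (p - 1) * (ENNReal.ofReal (1 / 2 ^ m) * ENNReal.ofReal (‖L (ev i)‖ ^ p) + δ) ≤
      ENNReal.ofReal (CL p L / 2 ^ m) := by
  have h1 : ‖L (ev i)‖ ≤ ‖L‖ := by
    refine (L.le_opNorm _).trans (le_of_eq ?_)
    rw [ev, Pi.norm_single, norm_one, mul_one]
  have h2 : ‖L (ev i)‖ ^ p ≤ ‖L‖ ^ p := Real.rpow_le_rpow (norm_nonneg _) h1 hp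
  have h3 : 0 ≤ ‖L (ev i)‖ ^ p := Real.rpow_nonneg (norm_nonneg _) _
  have h4 : 0 ≤ ‖L‖ ^ p := Real.rpow_nonneg (norm_nonneg _) _
  have hm : (0 : ℝ) < 1 / 2 ^ m := by positivity
  have hc : (0 : ℝ) < 2 ^ (p - 1) := by positivity
  calc _ ≤ 2 ^ (p - 1) * (ENNReal.ofReal (1 / 2 ^ m) * ENNReal.ofReal (‖L (ev i)‖ ^ p) +
        ENNReal.ofReal (1 / 2 ^ m)) := by gcongr
    _ = ENNReal.ofReal (2 ^ (p - 1) * (1 / 2 ^ m * ‖L (ev i)‖ ^ p + 1 / 2 ^ m)) := by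
        rw [two_rpow_eq, ← ENNReal.ofReal_mul hm.le, ← ENNReal.ofReal_add (by positivity) hm.le,
          ← ENNReal.ofReal_mul hc.le]
    _ ≤ _ := by
        refine ENNReal.ofReal_le_ofReal ?_
        have e1 : CL p L / 2 ^ m = 2 ^ (p - 1) * (1 / 2 ^ m * (360 * ‖L‖ ^ p) + 1 / 2 ^ m) := by
          rw [CL]; ring
        rw [e1]
        gcongr
        linarith

theorem out_le' {p : ℝ} (L : V →L[ℝ] V) {n m : ℕ} (hnm : n ≤ m) {δ : ℝ≥0∞}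
    (hδ : δ ≤ ENNReal.ofReal (1 / 2 ^ m)) :
    2 ^ (p - 1) * (ENNReal.ofReal (360 / 2 ^ n) * ENNReal.ofReal (‖L‖ ^ p) + δ) ≤
      ENNReal.ofReal (CL p L / 2 ^ n) := by
  have h4 : 0 ≤ ‖L‖ ^ p := Real.rpow_nonneg (norm_nonneg _) _
  have hm : (0 : ℝ) < 1 / 2 ^ n := by positivity
  have hm' : (0 : ℝ) < 360 / 2 ^ n := by positivity
  have hc : (0 : ℝ) < 2 ^ (p - 1) := by positivity
  have hδ' : δ ≤ ENNReal.ofReal (1 / 2 ^ n) := by
    refine hδ.trans (ENNReal.ofReal_le_ofReal ?_)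
    gcongr
    norm_num
  calc _ ≤ 2 ^ (p - 1) * (ENNReal.ofReal (360 / 2 ^ n) * ENNReal.ofReal (‖L‖ ^ p) +
        ENNReal.ofReal (1 / 2 ^ n)) := by gcongr
    _ = ENNReal.ofReal (2 ^ (p - 1) * (360 / 2 ^ n * ‖L‖ ^ p + 1 / 2 ^ n)) := by
        rw [two_rpow_eq, ← ENNReal.ofReal_mul hm'.le, ← ENNReal.ofReal_add (by positivity) hm.le,
          ← ENNReal.ofReal_mul hc.le]
    _ = _ := by
        congr 1
        rw [CL]; ring

/-! ### The constants `B`, `ε₁` -/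

/-- The choice of `B`. -/
theorem exists_B {n : ℕ} {a c : ℝ≥0∞} (ha : a ≠ ⊤) (hc : c ≠ ⊤) {ε : ℝ≥0∞} (hε : ε ≠ 0)
    (hεt : ε ≠ ⊤) : ∃ B : ℝ≥0∞, B ≠ 0 ∧ B ≠ ⊤ ∧
      2 ^ n * (8 * (a * (c * B + B + B)) + B) ≤ ε ∧ (c * B + B + B) + B ≤ ε := by
  set A : ℝ≥0∞ := 2 ^ n * (8 * (a * (c + 1 + 1)) + 1) + ((c + 1 + 1) + 1) with hA
  have hAt : A ≠ ⊤ := by rw [hA]; finiteness
  have hA0 : A ≠ 0 := by
    have : (1 : ℝ≥0∞) ≤ A := le_add_self.trans le_add_self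
    exact fun h => by rw [h] at this; exact absurd this (by norm_num)
  have hAB : A * (ε / A) = ε := ENNReal.mul_div_cancel hA0 hAt
  have hsp : 2 ^ n * (8 * (a * (c + 1 + 1)) + 1) * (ε / A) + ((c + 1 + 1) + 1) * (ε / A) = ε := by
    rw [← add_mul, ← hA, hAB]
  refine ⟨ε / A, ?_, ?_, ?_, ?_⟩
  · rw [Ne, ENNReal.div_eq_zero_iff]
    exact not_or.2 ⟨hε, hAt⟩
  · exact ENNReal.div_ne_top hεt hA0
  · refine le_trans (le_trans (le_of_eq ?_) le_self_add) hsp.le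
    ring
  · refine le_trans (le_trans (le_of_eq ?_) le_add_self) hsp.le
    ring

/-- **(S1)** -/
theorem specChoice2 : SpecChoice2 := by
  classical
  intro p L hp hp2 hL
  have hp0 : 0 ≤ p := by linarith
  obtain ⟨θ₀, hθ₀, ν, hν, θ, hθ, hlow, hlow3⟩ := exists_lin hL
  set M : ℝ := ‖L‖ + 1 + ‖ν‖ with hM
  have hM0 : 0 < M := by have := norm_nonneg L; have := norm_nonneg ν; linarith
  refine ⟨CL p L, CL_pos p L, θ, hθ, M, hM0, ?_⟩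
  intro n m hn hm ε hε k₁ k₀ hk₁ κ' hκ'
  set j := k₁ + k₀ with hj
  have hj1 : 1 ≤ j := by omega
  have hN2 : 2 ≤ 2 ^ j := by
    calc 2 = 2 ^ 1 := rfl
      _ ≤ 2 ^ j := Nat.pow_le_pow_right (by norm_num) hj1
  obtain ⟨η, t₀, lam, -, hcon⟩ := exists_consts hp hθ₀ hM0 hκ' hN2
  set η₀ : ℝ := min ε (min θ₀ (min θ 1)) with hη₀
  have hη₀0 : 0 < η₀ := lt_min hε (lt_min hθ₀ (lt_min hθ one_pos))
  have hηε : η₀ ≤ ε := min_le_left _ _
  have hηθ₀ : η₀ ≤ θ₀ := (min_le_right _ _).trans (min_le_left _ _)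
  have hηθ : η₀ ≤ θ := (min_le_right _ _).trans ((min_le_right _ _).trans (min_le_left _ _))
  have hη1 : η₀ ≤ 1 := (min_le_right _ _).trans ((min_le_right _ _).trans (min_le_right _ _))
  have hεE : ENNReal.ofReal ε ≠ 0 := (ENNReal.ofReal_pos.2 hε).ne'
  obtain ⟨B, hB0, hBt, hB1, hB2⟩ := exists_B (n := n) (a := ENNReal.ofReal M ^ p)
    (c := cntC 2 θ₀ t₀ lam (2 ^ j)) (ENNReal.rpow_ne_top_of_nonneg hp0 ENNReal.ofReal_ne_top)
    (cntC_ne_top hcon.lam0 _) hεE ENNReal.ofReal_ne_top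
  set δ : ℝ≥0∞ := min (ENNReal.ofReal ε) (ENNReal.ofReal (1 / 2 ^ m)) with hδ
  have hδ0 : δ ≠ 0 :=
    (lt_min (ENNReal.ofReal_pos.2 hε) (ENNReal.ofReal_pos.2 (by positivity))).ne'
  obtain ⟨κ, hκ, hex⟩ := exists_orgE hp L n m hδ0 hB0 hBt hη₀0
  refine ⟨κ, hκ, fun Λ f F hNear => ?_⟩
  obtain ⟨v, E, hO⟩ := hex Λ f F hNear
  have hv := hO.org
  obtain ⟨K, hKc, hKQ, hD⟩ := exists_D hNear.dom.1 hNear.homeo hO.comp hO.sub v n
  obtain ⟨K₀, hK₀, hK1, hK2⟩ := exists_K₀ (m := m) hO.rat hv hKc hKQ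
  obtain ⟨n₂, hmn, hPS, hpl⟩ := exists_planes (m := m) hcon hn hNear hO hlow hηθ₀ hη1
    (by have := norm_nonneg ν; linarith) hD hK₀ hB0
  -- functions of the plane
  have hpl' : ∀ z' : ℤ, ∃ (D : Set V) (δ₁ d e₀ : ℝ)
        (Le : Finset ((Fin 2 → ℤ) × Fin 2)) (I J : Finset (Fin 2 → ℤ))
        (b : (Fin 2 → ℤ) → (Fin 2 → ℝ)), 2 ≤ z' → z' < 2 ^ n - 3 → PData p θ₀ M κ' η t₀ lam
          (cntC 2 θ₀ t₀ lam (2 ^ j) * B + B + B) n m n₂ j f F v Λ E K K₀ z' D δ₁ d e₀ Le I J b := by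
    intro z'
    by_cases hz : 2 ≤ z' ∧ z' < 2 ^ n - 3
    · obtain ⟨D, δ₁, d, e₀, Le, I, J, b, h⟩ := hpl z' hz.1 hz.2
      exact ⟨D, δ₁, d, e₀, Le, I, J, b, fun _ _ => h⟩
    · exact ⟨∅, 1, 1, 1, ∅, ∅, ∅, fun _ => 0, fun a b => absurd ⟨a, b⟩ hz⟩
  choose Ds δ₁ d e₀ Le Is Js bs hPD using hpl'
  have hn1 : n + 1 ≤ m := by omega
  have hn2 : n + 1 ≤ n₂ := hn1.trans hmn
  have hn0 : n + 1 ≤ n₂ + j := by omega
  have hnear : ∀ x ∈ E, ‖cl (F x)‖ + ‖ν‖ ≤ M := by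
    intro x hx
    have h1 := hO.near x hx
    have h2 : ‖cl (F x)‖ ≤ ‖L‖ + ‖cl (F x) - L‖ := by
      calc ‖cl (F x)‖ = ‖L + (cl (F x) - L)‖ := by congr 1; abel
        _ ≤ _ := norm_add_le _ _
    linarith
  -- the base point
  have hbase : ∀ (z' : ℤ) (ζ : Fin 2 → ℤ), 2 ≤ z' → z' < 2 ^ n - 3 → ζ ∈ Js z' →
      βz v n n₂ bs (pz n n₂ z' ζ) ∈ E := by
    intro z' ζ h1 h2 hζ
    rw [βz_pz]
    exact base_mem (hPD z' h1 h2).grd hζ
  have hbaseJ : ∀ z ∈ Jg v n n₂ Js, βz v n n₂ bs z ∈ E := by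
    intro z hz
    obtain ⟨z', ζ, h1, h2, hζ, -, rfl⟩ := mem_Jg.1 hz
    exact hbase z' ζ h1 h2 hζ
  have hFat : ∀ (z' : ℤ) (ζ : Fin 2 → ℤ),
      Amap f (cl (F (βz v n n₂ bs (pz n n₂ z' ζ)))) ν (βz v n n₂ bs (pz n n₂ z' ζ)) ''
        pbox v (plq n₂ (pz n n₂ z' ζ)) (1 / 2 ^ (n₂ + j)) (1 / 2 ^ (n₂ + j)) =
      Fat v n n₂ j f F ν (mid v n z') z' (bs z') ζ := by
    intro z' ζ
    rw [βz_pz]
    rfl
  have hP : ∀ z' : ℤ, 2 ≤ z' → z' < 2 ^ n - 3 → ∀ ζ ∈ Js z',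
      closedBall (ctr (oth 2 v) (ms n₂) ζ) (ms n₂ / 2) ⊆ core2 v n →
      emb (Hz n n₂ z') ζ ∈ Jg v n n₂ Js :=
    fun z' h1 h2 ζ hζ hc => mem_Jg.2 ⟨z', ζ, h1, h2, hζ, hc, rfl⟩
  refine ⟨{
    v := v
    org := hv
    n₂ := n₂
    n₀ := n₂ + j
    eqn := by omega
    le := hmn
    J := Jg v n n₂ Js
    sub := ?_
    mid := ?_
    lone := ?_
    A := fun z => Amap f (cl (F (βz v n n₂ bs z))) ν (βz v n n₂ bs z)
    B := fun z => ext3 (cl (F (βz v n n₂ bs z))) ν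
    aff := fun z x y => Amap_sub _ _ _ _ _ _
    below := ?_
    above := ?_
    lin := ?_
    rat := hO.rat
    fin := fun e he _ => hO.fin e he
    own := ?_
    foreign := ?_
    inside := ?_
    disj := ?_
    hor := ?_
    ver := ?_
    out := ?_
    bad := ?_
    area := ?_ }⟩
  · -- sub
    intro z hz
    obtain ⟨z', ζ, h1, h2, hζ, hc, rfl⟩ := mem_Jg.1 hz
    exact squ_core hn2 h1 h2 hc
  · -- mid
    intro z hz
    obtain ⟨z', ζ, h1, h2, hζ, hc, rfl⟩ := mem_Jg.1 hz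
    refine ⟨z', h1, h2, ?_⟩
    rw [pt_two, pz_two, ht_Hz hn2]
  · -- lone
    intro z hz
    obtain ⟨z', ζ, h1, h2, hζ, hc, rfl⟩ := mem_Jg.1 hz
    exact LOC330.lone hn1 hmn ((hPD z' h1 h2).pos ζ hζ)
  · -- below
    intro z hz w
    exact ext3_below hlow3 ((hO.near _ (hbaseJ z hz)).trans hηθ) w
  · -- above
    intro z hz w
    exact (ext3_le _ _ _).trans (mul_le_mul_of_nonneg_right (hnear _ (hbaseJ z hz)) (norm_nonneg _))
  · -- lin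
    intro z hz i hi
    have h1 := hO.near _ (hbaseJ z hz)
    rw [ext3_of _ _ (show (ev i) 2 = 0 by rw [ev, Pi.single_eq_of_ne (Ne.symm hi)]),
      ← _root_.sub_apply]
    refine (ContinuousLinearMap.le_opNorm _ _).trans ?_
    rw [ev, Pi.norm_single, norm_one, mul_one]
    exact h1.trans hηε
  · -- own
    intro z hz e he he2 hez
    obtain ⟨z', ζ, h1, h2, hζ, hc, rfl⟩ := mem_Jg.1 hz
    have hd := hPD z' h1 h2
    simp only [βz_pz]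
    exact ⟨fun x hx => own1 hd.grd hd.le hn2 rfl hζ he he2 hez hx,
      own2 hd.grd hd.le hn2 rfl hζ he he2 hez⟩
  · -- foreign
    intro z hz e he hez x hx
    obtain ⟨z', ζ, h1, h2, hζ, hc, rfl⟩ := mem_Jg.1 hz
    rw [hFat]
    exact (hPD z' h1 h2).foreign hn hn1 hmn hj1 hν h1 h2 hv hK1 hK2 hζ he hez hx
  · -- inside
    intro z hz
    obtain ⟨z', ζ, h1, h2, hζ, hc, rfl⟩ := mem_Jg.1 hz
    rw [hFat]
    exact (hPD z' h1 h2).inside hn1 hmn hj1 hν hζ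
  · -- disj
    intro z hz w hw hne
    obtain ⟨z', ζ, h1, h2, hζ, hc, rfl⟩ := mem_Jg.1 hz
    obtain ⟨w', ξ, h3, h4, hξ, hc', rfl⟩ := mem_Jg.1 hw
    rw [hFat, hFat]
    by_cases hzw : w' = z'
    · subst hzw
      refine fat_disj (hPD w' h1 h2).grd hn2 hj1 rfl hν hζ hξ fun h => hne ?_
      rw [h]
    · exact (hPD z' h1 h2).disj_ne (hPD w' h3 h4) hn1 hmn hj1 hν h3 h4 hzw hO.sub hnear hζ hξ
  · -- hor
    intro e he hec _ _
    have h1 := hO.energy_le hp (he.le) (hec.trans (core_subset hv))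
    rw [he] at h1
    exact h1.trans (hor_le hp0 L (min_le_right _ _) e.2)
  · -- ver
    intro e he hec he2
    exact (hO.energy_le_of_ker he.le (hec.trans (core_subset hv)) (by rw [he2]; exact hL.1)).trans
      (min_le_left _ _)
  · -- out
    exact (hO.out_le hp hn).trans (out_le' L (by omega) (min_le_right _ _))
  · -- bad
    refine (tsum_planes hn0 (Jg v n n₂ Js)
      (fun e => ENNReal.ofReal (1 / 2 ^ (n₂ + j)) * fInt p v F e)).trans ?_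
    have h1 : ∀ z' ∈ Finset.Ico (2 : ℤ) (2 ^ n - 3),
        ∑' q : {q : (Fin 2 → ℤ) × Fin 2 | edge v (φe n (n₂ + j) z' q) ⊆ core v n ∧
          ∀ z ∈ Jg v n n₂ Js, ¬ edge v (φe n (n₂ + j) z' q) ⊆ squ v (plq n₂ z)},
          ENNReal.ofReal (1 / 2 ^ (n₂ + j)) * fInt p v F (φe n (n₂ + j) z' q) ≤
        8 * (ENNReal.ofReal M ^ p * (cntC 2 θ₀ t₀ lam (2 ^ j) * B + B + B)) + B := by
      intro z' hz'
      obtain ⟨h1, h2⟩ := Finset.mem_Ico.1 hz'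
      have hd := hPD z' h1 h2
      exact bad_plane hd.grd hn2 rfl hv (by omega) hmn hd.pos (hP z' h1 h2) hd.card
        (hO.plane_sum hp0 hn h1 h2 hPS)
    refine (Finset.sum_le_sum h1).trans ?_
    rw [Finset.sum_const, nsmul_eq_mul]
    refine le_trans (mul_le_mul' ?_ le_rfl) hB1
    have h2 : (Finset.Ico (2 : ℤ) (2 ^ n - 3)).card ≤ 2 ^ n := by
      rw [Int.card_Ico]
      have : ((2 : ℤ) ^ n - 3 - 2) ≤ ((2 ^ n : ℕ) : ℤ) := by push_cast; omega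
      exact Int.toNat_le.2 this
    exact_mod_cast h2
  · -- area
    intro z' h1 h2
    have hd := hPD z' h1 h2
    exact (area_plane hd.grd hn2 hv (by omega) hmn hd.pos (hP z' h1 h2) hd.card
      (hO.plane_int hp0 hn h1 h2)).trans hB2

end Vale.Agent.P073.LOC330
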