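import Vale.Agent.P073.LOC330.Plane

/-!
# P073, block LOC, choice of the plates: dyadic squares and edges in the middle planes
-/

namespace Vale.Agent.P073.LOC330

open MeasureTheory Set Filter Topology Metric Vale.Agent.P073.St
open Vale.Agent.P073.SQ (ev)
open Vale.Agent.P073.AB (cl Idx pt edge eInt squ tiles EdgeOf RatGood)
open Vale.Agent.P073.HB (obox GoodSeg vx edgeSum)
open Vale.Agent.P073.LOC
open Vale.Agent.P073.PK
open P073.Plate (pbox prel)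
open scoped ENNReal

/-- the horizontal indices -/
def o2 (z : Fin 3 → ℤ) : Fin 2 → ℤ := fun l => z ((2 : Fin 3).succAbove l)

/-- the index with height `H` and horizontal indices `ζ` -/
def emb (H : ℤ) (ζ : Fin 2 → ℤ) : Fin 3 → ℤ := (2 : Fin 3).insertNth H ζ

theorem emb_two (H : ℤ) (ζ : Fin 2 → ℤ) : emb H ζ 2 = H := by simp [emb]

theorem emb_succAbove (H : ℤ) (ζ : Fin 2 → ℤ) (l : Fin 2) :
    emb H ζ ((2 : Fin 3).succAbove l) = ζ l := by simp [emb]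

theorem o2_emb (H : ℤ) (ζ : Fin 2 → ℤ) : o2 (emb H ζ) = ζ := funext fun l => emb_succAbove H ζ l

theorem emb_o2 (z : Fin 3 → ℤ) : emb (z 2) (o2 z) = z := by
  ext j
  rcases Fin.eq_self_or_eq_succAbove 2 j with rfl | ⟨l, rfl⟩
  · rw [emb_two]
  · rw [emb_succAbove]; rfl

theorem emb_injective (H : ℤ) : Function.Injective (emb H) := fun ζ ζ' h => by
  rw [← o2_emb H ζ, h, o2_emb]

theorem forall_ne_two {P : Fin 3 → Prop} : (∀ i, i ≠ 2 → P i) ↔
    ∀ l : Fin 2, P ((2 : Fin 3).succAbove l) := by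
  constructor
  · intro h l
    exact h _ (Fin.succAbove_ne 2 l)
  · intro h j hj
    rcases Fin.eq_self_or_eq_succAbove 2 j with rfl | ⟨l, rfl⟩
    · exact absurd rfl hj
    · exact h l

/-- the height of the square -/
noncomputable def ht (v : V) (N : ℕ) (H : ℤ) : ℝ := v 2 + H / 2 ^ N

theorem pt_two (v : V) (N : ℕ) (z : Fin 3 → ℤ) : pt v N z 2 = ht v N (z 2) := rfl

theorem mem_squ {v : V} {N : ℕ} {z : Fin 3 → ℤ} {x : V} : x ∈ squ v (plq N z) ↔
    x 2 = ht v N (z 2) ∧ oth 2 x ∈ closedBall (ctr (oth 2 v) (ms N) (o2 z)) (ms N / 2) := by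
  rw [mem_cell (ms_pos N).le]
  simp only [squ, plq, mem_ofPred_eq, ht, oth, o2]
  rw [forall_ne_two]
  refine and_congr_right fun _ => forall_congr' fun l => ?_
  have e1 : ms N * (z ((2 : Fin 3).succAbove l) : ℝ) = z ((2 : Fin 3).succAbove l) / 2 ^ N := by
    rw [ms]; ring
  have e2 : ms N * ((z ((2 : Fin 3).succAbove l) : ℝ) + 1) =
      (z ((2 : Fin 3).succAbove l) + 1) / 2 ^ N := by
    rw [ms]; ring
  rw [e1, e2]

theorem mem_pbox {v : V} {N : ℕ} {z : Fin 3 → ℤ} {δ τ : ℝ} (hδ : δ ≤ ms N / 2) {x : V} :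
    x ∈ pbox v (plq N z) δ τ ↔
      |x 2 - ht v N (z 2)| ≤ τ ∧ oth 2 x ∈ box (oth 2 v) (ms N) δ (o2 z) := by
  rw [mem_box (by linarith)]
  simp only [pbox, plq, mem_ofPred_eq, ht]
  rw [forall_ne_two]
  refine and_congr_right fun _ => forall_congr' fun l => ?_
  rw [abs_le]
  simp only [oth, o2, ctr]
  have e0 : ms N = 1 / 2 ^ N := rfl
  have e1 : (z ((2 : Fin 3).succAbove l) : ℝ) / 2 ^ N = ms N * z ((2 : Fin 3).succAbove l) := by
    rw [ms]; ring
  have e2 : ((z ((2 : Fin 3).succAbove l) : ℝ) + 1) / 2 ^ N =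
      ms N * z ((2 : Fin 3).succAbove l) + ms N := by
    rw [ms]; ring
  rw [e1, e2]
  constructor
  · rintro ⟨h1, h2⟩
    constructor <;> nlinarith
  · rintro ⟨h1, h2⟩
    constructor <;> nlinarith

/-- the plane edge -/
theorem ga_sec (v : V) {e : Idx × Fin 3} {j : Fin 2} (he : e.2 = (2 : Fin 3).succAbove j) (t : ℝ) :
    ga v (ms e.1.1) (e.1.2, e.2) + t • gv (ms e.1.1) (e.1.2, e.2) =
      sec 2 (ht v e.1.1 (e.1.2 2)) (ga (oth 2 v) (ms e.1.1) (o2 e.1.2, j) +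
        t • gv (ms e.1.1) (o2 e.1.2, j)) := by
  ext i
  rw [ga_add]
  rcases Fin.eq_self_or_eq_succAbove 2 i with rfl | ⟨l, rfl⟩
  · rw [sec_same, if_neg, ht, ms]
    · ring
    · rw [he]
      exact (Fin.succAbove_ne 2 j).symm
  · rw [sec_succAbove, ga_add]
    simp only [oth, o2]
    congr 3
    rw [he]
    simp only [Fin.succAbove_right_inj]

theorem mem_edge_plane {v : V} {e : Idx × Fin 3} {j : Fin 2} (he : e.2 = (2 : Fin 3).succAbove j)
    {x : V} : x ∈ edge v e ↔ ∃ t ∈ Icc (0 : ℝ) 1,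
      sec 2 (ht v e.1.1 (e.1.2 2)) (ga (oth 2 v) (ms e.1.1) (o2 e.1.2, j) +
        t • gv (ms e.1.1) (o2 e.1.2, j)) = x := by
  rw [mem_edge_iff]
  simp only [ga_sec v he]

theorem edge_height {v : V} {e : Idx × Fin 3} {j : Fin 2} (he : e.2 = (2 : Fin 3).succAbove j)
    {x : V} (hx : x ∈ edge v e) : x 2 = ht v e.1.1 (e.1.2 2) := by
  obtain ⟨t, -, rfl⟩ := (mem_edge_plane he).1 hx
  rw [sec_same]

theorem edge_subset_squ {v : V} {e : Idx × Fin 3} {j : Fin 2} (he : e.2 = (2 : Fin 3).succAbove j)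
    {N : ℕ} {z : Fin 3 → ℤ} : edge v e ⊆ squ v (plq N z) ↔
      ht v e.1.1 (e.1.2 2) = ht v N (z 2) ∧
      InCell (oth 2 v) (ms N) (ga (oth 2 v) (ms e.1.1)) (gv (ms e.1.1)) (o2 e.1.2, j) (o2 z) := by
  constructor
  · intro h
    refine ⟨?_, fun t ht' => ?_⟩
    · have h1 := h ((mem_edge_plane he).2 ⟨0, ⟨le_rfl, zero_le_one⟩, rfl⟩)
      rw [mem_squ, sec_same] at h1
      exact h1.1
    · have h1 := h ((mem_edge_plane he).2 ⟨t, ht', rfl⟩)
      rw [mem_squ, oth_sec] at h1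
      exact h1.2
  · rintro ⟨h1, h2⟩ x hx
    obtain ⟨t, ht', rfl⟩ := (mem_edge_plane he).1 hx
    rw [mem_squ, sec_same, oth_sec]
    exact ⟨h1, h2 t ht'⟩

theorem eInt_plane (v : V) {e : Idx × Fin 3} {j : Fin 2} (he : e.2 = (2 : Fin 3).succAbove j)
    (H : V → ℝ≥0∞) : eInt v e H = ENNReal.ofReal (ms e.1.1) * ∫⁻ t in Ioc (0 : ℝ) 1,
      H (sec 2 (ht v e.1.1 (e.1.2 2)) (ga (oth 2 v) (ms e.1.1) (o2 e.1.2, j) +
        t • gv (ms e.1.1) (o2 e.1.2, j))) := by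
  rw [eInt_ga]
  simp only [ga_sec v he]

theorem secL_gv (l : ℕ) (ζ : Fin 2 → ℤ) (j : Fin 2) :
    secL 2 (gv (ms l) (ζ, j)) = ms l • ev ((2 : Fin 3).succAbove j) := by
  ext i
  rcases Fin.eq_self_or_eq_succAbove 2 i with rfl | ⟨l', rfl⟩
  · rw [secL_same, Pi.smul_apply, ev, Pi.single_eq_of_ne (Fin.succAbove_ne 2 j).symm, smul_zero]
  · rw [secL_succAbove]
    simp only [gv, HB.ev, ev, Pi.smul_apply, Pi.single_apply, Fin.succAbove_right_inj, smul_eq_mul,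
      mul_ite, mul_one, mul_zero]

/-! ### Heights -/

/-- the height index of the middle plane `z'` -/
def Hz (n N : ℕ) (z' : ℤ) : ℤ := (2 * z' + 1) * 2 ^ (N - (n + 1))

theorem ht_Hz {v : V} {n N : ℕ} (h : n + 1 ≤ N) (z' : ℤ) : ht v N (Hz n N z') = mid v n z' := by
  obtain ⟨j, rfl⟩ := Nat.exists_eq_add_of_le h
  rw [ht, Hz, mid, Nat.add_sub_cancel_left]
  push_cast
  rw [pow_add (2 : ℝ) (n + 1) j]
  field_simp

theorem ht_injective {v : V} {N : ℕ} {H H' : ℤ} (h : ht v N H = ht v N H') : H = H' := by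
  rw [ht, ht, add_right_inj, div_left_inj' (by positivity)] at h
  exact_mod_cast h

theorem ht_eq_mid {v : V} {n N : ℕ} (h : n + 1 ≤ N) {H z' : ℤ} :
    ht v N H = mid v n z' ↔ H = Hz n N z' := by
  rw [← ht_Hz h z']
  exact ⟨ht_injective, fun h => by rw [h]⟩

theorem exists_succAbove {i : Fin 3} (h : i ≠ 2) : ∃ j : Fin 2, i = (2 : Fin 3).succAbove j := by
  rcases Fin.eq_self_or_eq_succAbove 2 i with rfl | ⟨l, rfl⟩
  · exact absurd rfl h
  · exact ⟨l, rfl⟩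

end Vale.Agent.P073.LOC330
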