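import Vale.Agent.P073.LOC330.Lin
import Vale.Agent.P073.LOC560.En
import Vale.Agent.P073.PK.Period
import Vale.Agent.P073.PK.Decomp

/-!
# P073, block LOC, choice of the plates: the good set
-/

namespace Vale.Agent.P073.LOC330

open MeasureTheory Set Filter Topology Metric Vale.Agent.P073.St
open Vale.Agent.P073.SQ (ev)
open Vale.Agent.P073.AB (cl)
open Vale.Agent.P073.LOC
open Vale.Agent.P073.LOC560 (dv isOpen_Q1 volume_Q1_ne_top isBounded_Q1 aemeasurable_dv lintegral_dv_le)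
open Vale.Agent.P073.PK
open scoped ENNReal

theorem norm_le_sum_ev (A : V →L[ℝ] V) : ‖A‖ ≤ ∑ j, ‖A (ev j)‖ := by
  refine A.opNorm_le_bound (Finset.sum_nonneg fun _ _ => norm_nonneg _) fun w => ?_
  have h1 : w = ∑ j, w j • ev j := by
    ext i
    simp [ev, Finset.sum_apply, Pi.single_apply]
  calc ‖A w‖ = ‖∑ j, w j • A (ev j)‖ := by
        conv_lhs => rw [h1]
        rw [map_sum]
        simp only [map_smul]
    _ ≤ ∑ j, ‖w j • A (ev j)‖ := norm_sum_le _ _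
    _ ≤ ∑ j, ‖w‖ * ‖A (ev j)‖ := by
        refine Finset.sum_le_sum fun j _ => ?_
        rw [norm_smul]
        exact mul_le_mul_of_nonneg_right (norm_le_pi_norm w j) (norm_nonneg _)
    _ = (∑ j, ‖A (ev j)‖) * ‖w‖ := by rw [← Finset.mul_sum, mul_comm]

theorem enorm_rpow_le_sum_ev {p : ℝ} (hp : 1 ≤ p) (A : V →L[ℝ] V) :
    ‖A‖ₑ ^ p ≤ 3 ^ p * ∑ j, ENNReal.ofReal (‖A (ev j)‖ ^ p) := by
  have hp0 : 0 ≤ p := by linarith
  obtain ⟨j, -, hj⟩ := Finset.exists_max_image (Finset.univ : Finset (Fin 3))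
    (fun j => ‖A (ev j)‖) ⟨0, Finset.mem_univ _⟩
  have h1 : ‖A‖ ≤ 3 * ‖A (ev j)‖ := by
    refine (norm_le_sum_ev A).trans ?_
    calc ∑ i, ‖A (ev i)‖ ≤ ∑ _i : Fin 3, ‖A (ev j)‖ :=
          Finset.sum_le_sum fun i _ => hj i (Finset.mem_univ _)
      _ = 3 * ‖A (ev j)‖ := by
          rw [Finset.sum_const, Finset.card_univ, Fintype.card_fin, nsmul_eq_mul]
          norm_num
  calc ‖A‖ₑ ^ p = ENNReal.ofReal ‖A‖ ^ p := by rw [ofReal_norm]
    _ ≤ ENNReal.ofReal (3 * ‖A (ev j)‖) ^ p :=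
        ENNReal.rpow_le_rpow (ENNReal.ofReal_le_ofReal h1) hp0
    _ = 3 ^ p * ENNReal.ofReal (‖A (ev j)‖ ^ p) := by
        rw [ENNReal.ofReal_mul (by norm_num), ENNReal.mul_rpow_of_nonneg _ _ hp0,
          ENNReal.ofReal_rpow_of_nonneg (norm_nonneg _) hp0]
        norm_num
    _ ≤ _ := by
        gcongr
        exact Finset.single_le_sum (f := fun j => ENNReal.ofReal (‖A (ev j)‖ ^ p))
          (fun _ _ => zero_le) (Finset.mem_univ j)

/-- A positive real with a small multiple. -/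
theorem exists_kappa {A : ℝ≥0∞} (hA : A ≠ ⊤) {δ : ℝ≥0∞} (hδ : δ ≠ 0) :
    ∃ κ : ℝ, 0 < κ ∧ A * ENNReal.ofReal κ ≤ δ := by
  have h0 : Tendsto (fun κ : ℝ => A * ENNReal.ofReal κ) (𝓝 0) (𝓝 0) := by
    have h1 : Tendsto (fun m : ℝ => ENNReal.ofReal m) (𝓝 0) (𝓝 0) := by
      have := ENNReal.continuous_ofReal.tendsto 0
      rwa [ENNReal.ofReal_zero] at this
    have h2 := ENNReal.Tendsto.const_mul h1 (Or.inr hA) (a := A)
    rwa [mul_zero] at h2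
  obtain ⟨s, hs, h1⟩ := Metric.eventually_nhds_iff.1 (h0.eventually (gt_mem_nhds
    (pos_iff_ne_zero.2 hδ)))
  refine ⟨s / 2, by positivity, (h1 ?_).le⟩
  rw [Real.dist_eq, sub_zero, abs_of_pos (by positivity)]
  linarith

/-- The pointwise bound of the energy where the derivative is far from `L`. -/
theorem edens_le_of_far {p : ℝ} (hp : 1 ≤ p) {L A : V →L[ℝ] V} {η₀ : ℝ} (hη : 0 < η₀)
    (h : η₀ < ‖A - L‖) : 1 + ‖A‖ₑ ^ p ≤
      ((ENNReal.ofReal η₀ ^ p)⁻¹ + 2 ^ (p - 1) * (1 + ‖L‖ₑ ^ p * (ENNReal.ofReal η₀ ^ p)⁻¹)) *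
        ‖A - L‖ₑ ^ p := by
  have hp0 : 0 ≤ p := by linarith
  set c := (ENNReal.ofReal η₀ ^ p)⁻¹ with hc
  have hη0 : ENNReal.ofReal η₀ ≠ 0 := (ENNReal.ofReal_pos.2 hη).ne'
  have h1 : 1 ≤ c * ‖A - L‖ₑ ^ p := by
    have h2 : ENNReal.ofReal η₀ ^ p ≤ ‖A - L‖ₑ ^ p := by
      refine ENNReal.rpow_le_rpow ?_ hp0
      rw [← ofReal_norm]
      exact ENNReal.ofReal_le_ofReal h.le
    calc 1 = c * ENNReal.ofReal η₀ ^ p := by
          rw [hc, ENNReal.inv_mul_cancel]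
          · exact (ENNReal.rpow_pos (pos_iff_ne_zero.2 hη0) ENNReal.ofReal_ne_top).ne'
          · exact ENNReal.rpow_ne_top_of_nonneg hp0 ENNReal.ofReal_ne_top
      _ ≤ _ := by gcongr
  have h3 : ‖A‖ₑ ^ p ≤ 2 ^ (p - 1) * (‖A - L‖ₑ ^ p + ‖L‖ₑ ^ p) := by
    refine le_trans ?_ (ENNReal.rpow_add_le_mul_rpow_add_rpow _ _ hp)
    refine ENNReal.rpow_le_rpow ?_ hp0
    have h4 : ‖A‖ ≤ ‖A - L‖ + ‖L‖ := by
      have : A = (A - L) + L := by abel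
      calc ‖A‖ = ‖(A - L) + L‖ := by rw [← this]
        _ ≤ _ := norm_add_le _ _
    rw [← ofReal_norm, ← ofReal_norm, ← ofReal_norm,
      ← ENNReal.ofReal_add (norm_nonneg _) (norm_nonneg _)]
    exact ENNReal.ofReal_le_ofReal h4
  calc 1 + ‖A‖ₑ ^ p ≤ c * ‖A - L‖ₑ ^ p + 2 ^ (p - 1) * (‖A - L‖ₑ ^ p + ‖L‖ₑ ^ p * 1) := by
        rw [mul_one]
        exact add_le_add h1 h3
    _ ≤ c * ‖A - L‖ₑ ^ p + 2 ^ (p - 1) * (‖A - L‖ₑ ^ p + ‖L‖ₑ ^ p * (c * ‖A - L‖ₑ ^ p)) := by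
        gcongr
    _ = _ := by ring

/-- **The good set.** -/
theorem exists_good_set {p : ℝ} (hp : 1 ≤ p) (L : V →L[ℝ] V) {η₀ : ℝ} (hη : 0 < η₀)
    {ε : ℝ≥0∞} (hε : ε ≠ 0) : ∃ κ : ℝ, 0 < κ ∧ ∀ (Λ : Set V) (f : V → V) (F : V → Mat),
      Near p κ L Λ f F → ∃ E ⊆ Q1, IsCompact E ∧ UDiff f (fun x => cl (F x)) E ∧
        ContinuousOn (fun x => cl (F x)) E ∧ (∀ x ∈ E, ‖cl (F x) - L‖ ≤ η₀) ∧
        ∫⁻ x, dens (fun x => cl (F x)) p Q1 E x ≤ ε := by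
  have hp0 : 0 ≤ p := by linarith
  have hε2 : ε / 2 ≠ 0 := by
    rw [Ne, ENNReal.div_eq_zero_iff]
    exact not_or.2 ⟨hε, by norm_num⟩
  have hη0 : ENNReal.ofReal η₀ ≠ 0 := (ENNReal.ofReal_pos.2 hη).ne'
  set c := (ENNReal.ofReal η₀ ^ p)⁻¹ with hc
  have hct : c ≠ ⊤ := by
    rw [hc, Ne, ENNReal.inv_eq_top]
    exact (ENNReal.rpow_pos (pos_iff_ne_zero.2 hη0) ENNReal.ofReal_ne_top).ne'
  set C₁ : ℝ≥0∞ := c + 2 ^ (p - 1) * (1 + ‖L‖ₑ ^ p * c) with hC₁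
  have h2p : (2 : ℝ≥0∞) ^ (p - 1) ≠ ⊤ := ENNReal.rpow_ne_top_of_nonneg (by linarith) (by norm_num)
  have h3p : (3 : ℝ≥0∞) ^ p ≠ ⊤ := ENNReal.rpow_ne_top_of_nonneg hp0 (by norm_num)
  have hLp : ‖L‖ₑ ^ p ≠ ⊤ := ENNReal.rpow_ne_top_of_nonneg hp0 enorm_ne_top
  have hC₁t : C₁ ≠ ⊤ := ENNReal.add_ne_top.2 ⟨hct, ENNReal.mul_ne_top h2p
    (ENNReal.add_ne_top.2 ⟨ENNReal.one_ne_top, ENNReal.mul_ne_top hLp hct⟩)⟩
  obtain ⟨κ, hκ, hκε⟩ := exists_kappa (ENNReal.mul_ne_top hC₁t h3p) hε2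
  refine ⟨κ, hκ, fun Λ f F hN => ?_⟩
  set F' : V → (V →L[ℝ] V) := fun x => cl (F x) with hF'
  have haesm : AEStronglyMeasurable F' (volume.restrict Q1) := IsSob.aesm hN.sob
  have hFp : ∫⁻ x in Q1, ‖F' x‖ₑ ^ p ≠ ⊤ := IsSob.lintegral_ne_top hp hN.sob
  have hw := IsSob.weakDeriv hp volume_Q1_ne_top hN.sob
  have hfc : ContinuousOn f Q1 := hN.cont.mono subset_closure
  -- the set where the derivative is close to `L`
  set F₁ := haesm.mk F' with hF₁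
  have hF₁m : Measurable F₁ := haesm.stronglyMeasurable_mk.measurable
  set N := toMeasurable (volume.restrict Q1) {x | F' x ≠ F₁ x} with hNd
  have hN0 : volume.restrict Q1 N = 0 := by
    rw [hNd, measure_toMeasurable]
    exact ae_iff.1 haesm.ae_eq_mk
  have hNm : MeasurableSet N := measurableSet_toMeasurable _ _
  have hNe : ∀ x, x ∉ N → F' x = F₁ x := fun x hx => by
    by_contra h
    exact hx (subset_toMeasurable _ _ h)
  set S : Set V := (Q1 ∩ {x | ‖F₁ x - L‖ ≤ η₀}) \ N with hS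
  have hSm : MeasurableSet S := (isOpen_Q1.measurableSet.inter
    (measurableSet_le (hF₁m.sub_const L).norm measurable_const)).diff hNm
  have hSQ : S ⊆ Q1 := fun x hx => hx.1.1
  obtain ⟨δ, hδ, hδε⟩ := exists_pos_setLIntegral_lt_of_measure_lt
    (lintegral_edens_ne_top volume_Q1_ne_top hFp) hε2
  obtain ⟨T, hTS, hTc, hTv, hTcont, hTl⟩ := HB.exists_lusin_set (μ := volume) isOpen_Q1
    volume_Q1_ne_top hfc haesm hw hp hFp hSm hSQ hδ.ne'
  have hTQ : T ⊆ Q1 := hTS.trans hSQ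
  refine ⟨T, hTQ, hTc, ?_, hTcont, ?_, ?_⟩
  · intro η hη
    obtain ⟨δ', hδ', h1⟩ := hTl η hη
    exact ⟨δ', hδ', fun x hx y hy hxy => ((h1 x hx).2.2.2 y hy hxy.le).2⟩
  · intro x hx
    have h1 := hTS hx
    have h2 : ‖F₁ x - L‖ ≤ η₀ := h1.1.2
    rw [← hNe x h1.2] at h2
    exact h2
  · rw [lintegral_dens isOpen_Q1.measurableSet hTc.measurableSet]
    have hsub : Q1 \ T ⊆ (Q1 \ S) ∪ (S \ T) := by
      rintro x ⟨hx, hxT⟩
      by_cases hxS : x ∈ S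
      · exact Or.inr ⟨hxS, hxT⟩
      · exact Or.inl ⟨hx, hxS⟩
    have hA : ∫⁻ x in Q1 \ S, (1 + ‖F' x‖ₑ ^ p) ≤ ε / 2 := by
      have hQS : MeasurableSet (Q1 \ S) := isOpen_Q1.measurableSet.diff hSm
      have hNS : volume.restrict (Q1 \ S) N = 0 :=
        le_antisymm ((Measure.restrict_mono sdiff_subset le_rfl N).trans_eq hN0) zero_le
      calc ∫⁻ x in Q1 \ S, (1 + ‖F' x‖ₑ ^ p)
          ≤ ∫⁻ x in Q1 \ S, C₁ * 3 ^ p * dv p L F x := by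
            refine lintegral_mono_ae ?_
            filter_upwards [ae_restrict_mem hQS, measure_eq_zero_iff_ae_notMem.1 hNS] with x hx hxN
            have hfar : η₀ < ‖F' x - L‖ := by
              by_contra hle
              push Not at hle
              refine hx.2 ⟨⟨hx.1, ?_⟩, hxN⟩
              rw [mem_ofPred_eq, ← hNe x hxN]
              exact hle
            refine (edens_le_of_far hp hη hfar).trans ?_
            rw [mul_assoc]
            refine mul_le_mul' le_rfl ?_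
            refine (enorm_rpow_le_sum_ev hp _).trans (le_of_eq ?_)
            rw [dv, indicator_of_mem hx.1]
            rfl
        _ ≤ ∫⁻ x, C₁ * 3 ^ p * dv p L F x := setLIntegral_le_lintegral _ _
        _ = C₁ * 3 ^ p * ∫⁻ x, dv p L F x :=
            lintegral_const_mul' _ _ (ENNReal.mul_ne_top hC₁t h3p)
        _ ≤ C₁ * 3 ^ p * ENNReal.ofReal κ := by
            gcongr
            exact lintegral_dv_le hN
        _ ≤ ε / 2 := hκε
    have hB : ∫⁻ x in S \ T, (1 + ‖F' x‖ₑ ^ p) ≤ ε / 2 := by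
      have h3 := hδε (S \ T) ((Measure.restrict_apply_le _ _).trans_lt hTv)
      have hm : MeasurableSet (S \ T) := hSm.diff hTc.measurableSet
      rw [Measure.restrict_restrict hm, inter_eq_left.2 (sdiff_subset.trans hSQ)] at h3
      exact h3.le
    calc ∫⁻ x in Q1 \ T, (1 + ‖F' x‖ₑ ^ p)
        ≤ ∫⁻ x in (Q1 \ S) ∪ (S \ T), (1 + ‖F' x‖ₑ ^ p) := lintegral_mono_set hsub
      _ ≤ (∫⁻ x in Q1 \ S, (1 + ‖F' x‖ₑ ^ p)) + ∫⁻ x in S \ T, (1 + ‖F' x‖ₑ ^ p) :=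
          lintegral_union_le _ _ _
      _ ≤ ε / 2 + ε / 2 := add_le_add hA hB
      _ = ε := ENNReal.add_halves ε

end Vale.Agent.P073.LOC330
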