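import Vale.Agent.P073.LOC.Sec2
import Vale.Agent.P073.PK.Far

/-!
# P073, block LOC, choice of the plates: linear algebra

A linear map of rank two with kernel `ev 2` is made invertible by a small transversal vector `ν`;
the same vector works for all nearby linear maps.
-/

namespace Vale.Agent.P073.LOC330

open MeasureTheory Set Filter Topology Metric Vale.Agent.P073.St
open Vale.Agent.P073.SQ (ev)
open Vale.Agent.P073.LOC
open Vale.Agent.P073.PK (sec secL)

/-- the horizontal projection -/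
noncomputable def hpr : V →L[ℝ] V :=
  LinearMap.toContinuousLinearMap
    { toFun := fun w => Function.update w 2 0
      map_add' := fun w w' => by
        ext i
        by_cases h : i = 2
        · subst h; simp
        · simp [Function.update_of_ne h]
      map_smul' := fun a w => by
        ext i
        by_cases h : i = 2
        · subst h; simp
        · simp [Function.update_of_ne h] }

theorem hpr_apply (w : V) : hpr w = Function.update w 2 0 := rfl

theorem hpr_of {w : V} (h : w 2 = 0) : hpr w = w := by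
  rw [hpr_apply, ← h, Function.update_eq_self]

theorem hpr_two (w : V) : hpr w 2 = 0 := by simp [hpr_apply]

theorem norm_hpr_le (w : V) : ‖hpr w‖ ≤ ‖w‖ := by
  rw [pi_norm_le_iff_of_nonneg (norm_nonneg _)]
  intro i
  by_cases h : i = 2
  · subst h; rw [hpr_two]; simp
  · rw [hpr_apply, Function.update_of_ne h]
    exact norm_le_pi_norm w i

theorem hpr_add_smul (w : V) : hpr w + w 2 • ev 2 = w := by
  ext i
  by_cases h : i = 2
  · subst h; simp [hpr_two, ev]
  · rw [Pi.add_apply, hpr_apply, Function.update_of_ne h]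
    simp [ev, Pi.single_eq_of_ne h]

/-- `T` on the horizontal plane, `ν` in the vertical direction -/
noncomputable def ext3 (T : V →L[ℝ] V) (ν : V) : V →L[ℝ] V :=
  T.comp hpr + (ContinuousLinearMap.proj (R := ℝ) (φ := fun _ : Fin 3 => ℝ) 2).smulRight ν

theorem ext3_apply (T : V →L[ℝ] V) (ν w : V) : ext3 T ν w = T (hpr w) + w 2 • ν := by
  simp [ext3]

theorem ext3_of (T : V →L[ℝ] V) (ν : V) {w : V} (h : w 2 = 0) : ext3 T ν w = T w := by
  rw [ext3_apply, hpr_of h, h, zero_smul, add_zero]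

theorem ext3_add (T : V →L[ℝ] V) (ν w : V) (t : ℝ) :
    ext3 T ν (w + t • ev 2) = ext3 T ν w + t • ν := by
  rw [map_add, map_smul]
  congr 2
  rw [ext3_apply]
  have h1 : hpr (ev 2) = 0 := by
    ext i
    by_cases h : i = 2
    · subst h; rw [hpr_two]; rfl
    · rw [hpr_apply, Function.update_of_ne h]; simp [ev, Pi.single_eq_of_ne h]
  rw [h1, map_zero, zero_add, ev, Pi.single_eq_same, one_smul]

theorem abs_two_le (w : V) : |w 2| ≤ ‖w‖ := norm_le_pi_norm w 2

theorem ext3_sub_le (T T' : V →L[ℝ] V) (ν w : V) : ‖ext3 T ν w - ext3 T' ν w‖ ≤ ‖T - T'‖ * ‖w‖ := by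
  rw [ext3_apply, ext3_apply]
  have e : T (hpr w) + w 2 • ν - (T' (hpr w) + w 2 • ν) = (T - T') (hpr w) := by
    rw [_root_.sub_apply]; abel
  rw [e]
  exact ((T - T').le_opNorm _).trans (mul_le_mul_of_nonneg_left (norm_hpr_le w) (norm_nonneg _))

theorem ext3_le (T : V →L[ℝ] V) (ν w : V) : ‖ext3 T ν w‖ ≤ (‖T‖ + ‖ν‖) * ‖w‖ := by
  rw [ext3_apply, add_mul]
  refine (norm_add_le _ _).trans (add_le_add ?_ ?_)
  · exact (T.le_opNorm _).trans (mul_le_mul_of_nonneg_left (norm_hpr_le w) (norm_nonneg _))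
  · rw [norm_smul, mul_comm]
    exact mul_le_mul_of_nonneg_left (abs_two_le w) (norm_nonneg _)

theorem secL_two (u : Fin 2 → ℝ) : secL 2 u = u 0 • ev 0 + u 1 • ev 1 := by
  have e0 : (2 : Fin 3).succAbove 0 = 0 := rfl
  have e1 : (2 : Fin 3).succAbove 1 = 1 := rfl
  ext i
  fin_cases i
  · have h := PK.secL_succAbove 2 u 0
    rw [e0] at h
    simp [h, ev]
  · have h := PK.secL_succAbove 2 u 1
    rw [e1] at h
    simp [h, ev]
  · have h := PK.secL_same 2 u
    simp [h, ev]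

theorem secL_res {w : V} (h : w 2 = 0) : secL 2 (fun l => w ((2 : Fin 3).succAbove l)) = w := by
  ext j
  rcases Fin.eq_self_or_eq_succAbove 2 j with rfl | ⟨l, rfl⟩
  · rw [PK.secL_same, h]
  · rw [PK.secL_succAbove]

/-- **The constants of `L`.** -/
theorem exists_lin {L : V →L[ℝ] V} (h : Rank2 L) : ∃ θ₀ : ℝ, 0 < θ₀ ∧ ∃ ν : V, ‖ν‖ ≤ θ₀ / 32 ∧
    ∃ θ : ℝ, 0 < θ ∧ (∀ w, w 2 = 0 → 2 * θ₀ * ‖w‖ ≤ ‖L w‖) ∧
      ∀ w, 2 * θ * ‖w‖ ≤ ‖ext3 L ν w‖ := by
  -- `L` is injective on the horizontal plane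
  set L₁ : (Fin 2 → ℝ) →ₗ[ℝ] V := (L.comp (secL 2)).toLinearMap with hL₁
  have hker : LinearMap.ker L₁ = ⊥ := by
    rw [LinearMap.ker_eq_bot']
    intro u hu
    have h1 : L (secL 2 u) = 0 := hu
    rw [secL_two, map_add, map_smul, map_smul] at h1
    obtain ⟨h2, h3⟩ := h.2 _ _ h1
    ext l
    fin_cases l
    · exact h2
    · exact h3
  obtain ⟨K, hK, hanti⟩ := L₁.exists_antilipschitzWith hker
  have hK' : (0 : ℝ) < K := by exact_mod_cast hK
  have hlow : ∀ w : V, w 2 = 0 → ‖w‖ ≤ K * ‖L w‖ := by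
    intro w hw
    have h1 := hanti.le_mul_dist (fun l => w ((2 : Fin 3).succAbove l)) 0
    rw [dist_zero_right, map_zero, dist_zero_right] at h1
    have h2 : L₁ (fun l => w ((2 : Fin 3).succAbove l)) = L w := by
      change L (secL 2 _) = _
      rw [secL_res hw]
    rw [h2] at h1
    rw [← PK.norm_secL 2, secL_res hw] at h1
    exact h1
  -- a vector which is not in the image
  obtain ⟨ν₀, hν₀⟩ : ∃ ν₀ : V, ν₀ ∉ LinearMap.range L₁ := by
    by_contra hn
    push Not at hn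
    have hsurj : Function.Surjective L₁ := fun y => LinearMap.mem_range.1 (hn y)
    have h1 := LinearMap.finrank_le_finrank_of_surjective hsurj
    rw [Module.finrank_fin_fun, Module.finrank_fin_fun] at h1
    omega
  have hν0 : ν₀ ≠ 0 := fun h0 => hν₀ (h0 ▸ Submodule.zero_mem _)
  have hn0 : 0 < ‖ν₀‖ := norm_pos_iff.2 hν0
  set θ₀ : ℝ := 1 / (2 * K) with hθ₀
  have hθ₀p : 0 < θ₀ := by positivity
  set c : ℝ := θ₀ / 32 / ‖ν₀‖ with hc
  have hcp : 0 < c := by positivity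
  set ν : V := c • ν₀ with hν
  have hker2 : LinearMap.ker (ext3 L ν).toLinearMap = ⊥ := by
    rw [LinearMap.ker_eq_bot']
    intro w hw
    have h1 : L (hpr w) + w 2 • ν = 0 := by
      rw [← ext3_apply]; exact hw
    have h2 : w 2 = 0 := by
      by_contra hne
      apply hν₀
      rw [LinearMap.mem_range]
      refine ⟨fun l => -(w 2 * c)⁻¹ * w ((2 : Fin 3).succAbove l), ?_⟩
      have h3 : (fun l => -(w 2 * c)⁻¹ * w ((2 : Fin 3).succAbove l)) =
          (-(w 2 * c)⁻¹) • fun l => (hpr w) ((2 : Fin 3).succAbove l) := by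
        ext l
        simp only [Pi.smul_apply, smul_eq_mul]
        rw [hpr_apply, Function.update_of_ne (Fin.succAbove_ne 2 l)]
      rw [h3, map_smul]
      have h4 : L₁ (fun l => (hpr w) ((2 : Fin 3).succAbove l)) = L (hpr w) := by
        change L (secL 2 _) = _
        rw [secL_res (hpr_two w)]
      have h5 : L (hpr w) = -((w 2 * c) • ν₀) := by
        rw [hν, smul_smul] at h1
        exact eq_neg_of_add_eq_zero_left h1
      rw [h4, h5, smul_neg, neg_smul, neg_neg, smul_smul,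
        inv_mul_cancel₀ (mul_ne_zero hne hcp.ne'), one_smul]
    rw [h2, zero_smul, add_zero, hpr_of h2] at h1
    have h3 := hlow w h2
    rw [h1, norm_zero, mul_zero] at h3
    exact norm_le_zero_iff.1 h3
  obtain ⟨K₂, hK₂, hanti₂⟩ := (ext3 L ν).toLinearMap.exists_antilipschitzWith hker2
  have hK₂' : (0 : ℝ) < K₂ := by exact_mod_cast hK₂
  refine ⟨θ₀, hθ₀p, ν, ?_, 1 / (2 * K₂), by positivity, ?_, ?_⟩
  · rw [hν, norm_smul, Real.norm_eq_abs, abs_of_pos hcp, hc, div_mul_cancel₀ _ hn0.ne']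
  · intro w hw
    have h1 := hlow w hw
    have e : 2 * θ₀ * ‖w‖ = ‖w‖ / K := by rw [hθ₀]; field_simp
    rw [e, div_le_iff₀ hK', mul_comm]
    exact h1
  · intro w
    have h1 := hanti₂.le_mul_dist w 0
    rw [dist_zero_right, map_zero, dist_zero_right] at h1
    have e : 2 * (1 / (2 * (K₂ : ℝ))) * ‖w‖ = ‖w‖ / K₂ := by field_simp
    rw [e, div_le_iff₀ hK₂', mul_comm]
    exact h1

/-- The linear maps close to `L`. -/
theorem ext3_below {L T : V →L[ℝ] V} {ν : V} {θ : ℝ} (h : ∀ w, 2 * θ * ‖w‖ ≤ ‖ext3 L ν w‖)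
    (hT : ‖T - L‖ ≤ θ) (w : V) : θ * ‖w‖ ≤ ‖ext3 T ν w‖ := by
  have h1 := h w
  have h2 := (ext3_sub_le T L ν w).trans (mul_le_mul_of_nonneg_right hT (norm_nonneg _))
  have h4 : ‖ext3 L ν w‖ ≤ ‖ext3 T ν w‖ + ‖ext3 T ν w - ext3 L ν w‖ := by
    have : ext3 L ν w = ext3 T ν w - (ext3 T ν w - ext3 L ν w) := by abel
    calc ‖ext3 L ν w‖ = ‖ext3 T ν w - (ext3 T ν w - ext3 L ν w)‖ := by rw [← this]
      _ ≤ _ := norm_sub_le _ _
  linarith

theorem below_two {L T : V →L[ℝ] V} {θ₀ : ℝ} (h : ∀ w : V, w 2 = 0 → 2 * θ₀ * ‖w‖ ≤ ‖L w‖)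
    (hT : ‖T - L‖ ≤ θ₀) (w : V) (hw : w 2 = 0) : θ₀ * ‖w‖ ≤ ‖T w‖ := by
  have h1 := h w hw
  have h2 : ‖T w - L w‖ ≤ θ₀ * ‖w‖ := by
    rw [← _root_.sub_apply]
    exact ((T - L).le_opNorm w).trans (mul_le_mul_of_nonneg_right hT (norm_nonneg _))
  have h4 : ‖L w‖ ≤ ‖T w‖ + ‖T w - L w‖ := by
    have : L w = T w - (T w - L w) := by abel
    calc ‖L w‖ = ‖T w - (T w - L w)‖ := by rw [← this]
      _ ≤ _ := norm_sub_le _ _
  linarith

end Vale.Agent.P073.LOC330
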