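import Vale.Agent.P073.LOC330.Good

/-!
# P073, block LOC, choice of the plates: the origin
-/

namespace Vale.Agent.P073.LOC330

open MeasureTheory Set Filter Topology Metric Vale.Agent.P073.St
open Vale.Agent.P073.SQ (ev)
open Vale.Agent.P073.AB (cl)
open Vale.Agent.P073.HB (obox)
open Vale.Agent.P073.LOC
open Vale.Agent.P073.LOC560 (dv isOpen_Q1 volume_Q1_ne_top isBounded_Q1 aemeasurable_dv
  lintegral_dv_le Org exists_org aemeasurable_planeInt lintegral_planeInt_two)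
open Vale.Agent.P073.PK
open scoped ENNReal

/-- The sum of the fine edge sums of all the middle planes. -/
noncomputable def PS (κ : V → ℝ≥0∞) (n l : ℕ) (v : V) : ℝ≥0∞ :=
  (∑' z : ℤ, planeSum κ 2 (1 / 2 ^ (n + 1)) (1 / 2 ^ l) v z) * ((2 : ℝ≥0∞) ^ l)⁻¹ ^ 2

theorem aemeasurable_PS {κ : V → ℝ≥0∞} (hκ : AEMeasurable κ) (n l : ℕ) :
    AEMeasurable (PS κ n l) :=
  (AEMeasurable.tsum fun z => aemeasurable_planeSum hκ 2 _ _ z).mul_const _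

theorem lintegral_PS {κ : V → ℝ≥0∞} (hκ : AEMeasurable κ) (n l : ℕ) :
    ∫⁻ o in obox 3 1, PS κ n l o = 2 * (2 : ℝ≥0∞) ^ (n + 1) * ∫⁻ x, κ x := by
  unfold PS
  rw [lintegral_mul_const'' _ (AEMeasurable.tsum fun z => aemeasurable_planeSum hκ 2 _ _ z).restrict]
  have h1 := lintegral_planeSum (n := 2 ^ (n + 1)) (n' := 2 ^ l) (by positivity) (by positivity)
    hκ 2
  push_cast at h1
  rw [h1]
  have h2 : ((2 : ℝ≥0∞) ^ l) * ((2 : ℝ≥0∞) ^ l)⁻¹ = 1 :=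
    ENNReal.mul_inv_cancel (by positivity) (by finiteness)
  calc 2 * ((2 : ℝ≥0∞) ^ (n + 1) * (2 ^ l) ^ 2) * (∫⁻ x, κ x) * ((2 : ℝ≥0∞) ^ l)⁻¹ ^ 2
      = 2 * 2 ^ (n + 1) * (∫⁻ x, κ x) * (((2 : ℝ≥0∞) ^ l) * ((2 : ℝ≥0∞) ^ l)⁻¹) ^ 2 := by ring
    _ = _ := by rw [h2]; ring

/-- The additional functional of the origin. -/
noncomputable def Psi (κ : V → ℝ≥0∞) (n : ℕ) (v : V) : ℝ≥0∞ :=
  liminf (fun l => PS κ n l v) atTop + ∑' z : ℤ, planeInt κ 2 (1 / 2 ^ (n + 1)) v z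

theorem aemeasurable_Psi {κ : V → ℝ≥0∞} (hκ : AEMeasurable κ) (n : ℕ) : AEMeasurable (Psi κ n) :=
  (aemeasurable_liminf fun l => aemeasurable_PS hκ n l).add
    (AEMeasurable.tsum fun z => aemeasurable_planeInt hκ 2 _ z)

theorem lintegral_Psi_le {κ : V → ℝ≥0∞} (hκ : AEMeasurable κ) (n : ℕ) :
    ∫⁻ o in obox 3 1, Psi κ n o ≤ 3 * (2 : ℝ≥0∞) ^ (n + 1) * ∫⁻ x, κ x := by
  unfold Psi
  rw [lintegral_add_left' (aemeasurable_liminf fun l => (aemeasurable_PS hκ n l).restrict),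
    lintegral_planeInt_two hκ]
  have h1 : ∫⁻ o in obox 3 1, liminf (fun l => PS κ n l o) atTop ≤
      2 * (2 : ℝ≥0∞) ^ (n + 1) * ∫⁻ x, κ x := by
    refine (lintegral_liminf_le' fun l => (aemeasurable_PS hκ n l).restrict).trans ?_
    simp only [lintegral_PS hκ]
    rw [liminf_const]
  calc _ ≤ 2 * (2 : ℝ≥0∞) ^ (n + 1) * (∫⁻ x, κ x) + 2 ^ (n + 1) * ∫⁻ x, κ x :=
        add_le_add h1 le_rfl
    _ = _ := by ring

/-- The good origin and the good set. -/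
structure OrgE (p : ℝ) (δ B : ℝ≥0∞) (η₀ : ℝ) (n m : ℕ) (L : V →L[ℝ] V) (f : V → V) (F : V → Mat)
    (v : V) (E : Set V) : Prop extends Org p δ n m L f F v where
  sub : E ⊆ Q1
  comp : IsCompact E
  udiff : UDiff f (fun x => cl (F x)) E
  cont : ContinuousOn (fun x => cl (F x)) E
  near : ∀ x ∈ E, ‖cl (F x) - L‖ ≤ η₀
  ints : ∑' z : ℤ, planeInt (dens (fun x => cl (F x)) p Q1 E) 2 (1 / 2 ^ (n + 1)) v z ≤ B
  sums : ∃ᶠ l in atTop, PS (dens (fun x => cl (F x)) p Q1 E) n l v ≤ B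

theorem exists_orgE {p : ℝ} (hp : 1 ≤ p) (L : V →L[ℝ] V) (n m : ℕ) {δ B : ℝ≥0∞} (hδ : δ ≠ 0)
    (hB : B ≠ 0) (hBt : B ≠ ⊤) {η₀ : ℝ} (hη : 0 < η₀) :
    ∃ κ : ℝ, 0 < κ ∧ ∀ (Λ : Set V) (f : V → V) (F : V → Mat), Near p κ L Λ f F →
      ∃ v E, OrgE p δ B η₀ n m L f F v E := by
  set A : ℝ≥0∞ := 2 * ((2 : ℝ≥0∞) ^ n) ^ 3 * (3 * (2 : ℝ≥0∞) ^ (n + 1)) with hA
  have hAt : A ≠ ⊤ := by rw [hA]; finiteness
  have hA0 : A ≠ 0 := by rw [hA]; positivity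
  set ε : ℝ≥0∞ := B / 2 / A with hε
  have hε0 : ε ≠ 0 := by
    rw [hε, Ne, ENNReal.div_eq_zero_iff, ENNReal.div_eq_zero_iff]
    push Not
    exact ⟨⟨hB, by norm_num⟩, hAt⟩
  have hAε : A * ε = B / 2 := ENNReal.mul_div_cancel hA0 hAt
  obtain ⟨κ₁, hκ₁, h1⟩ := exists_good_set hp L hη hε0
  obtain ⟨κ₂, hκ₂, h2⟩ := exists_org hp L n m hδ
  refine ⟨min κ₁ κ₂, lt_min hκ₁ hκ₂, fun Λ f F hN => ?_⟩
  have hN₁ : Near p κ₁ L Λ f F := ⟨hN.dom, hN.homeo, hN.cont, hN.sob,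
    hN.near.trans (ENNReal.ofReal_le_ofReal (min_le_left _ _))⟩
  have hN₂ : Near p κ₂ L Λ f F := ⟨hN.dom, hN.homeo, hN.cont, hN.sob,
    hN.near.trans (ENNReal.ofReal_le_ofReal (min_le_right _ _))⟩
  obtain ⟨E, hEQ, hEc, hud, hcont, hnear, hdens⟩ := h1 Λ f F hN₁
  set κE := dens (fun x => cl (F x)) p Q1 E with hκE
  have hκm : AEMeasurable κE :=
    aemeasurable_dens isOpen_Q1.measurableSet hEc.measurableSet (IsSob.aesm hN.sob) p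
  obtain ⟨v, hv, -, hΨ⟩ := h2 Λ f F hN₂ (Psi κE n) (fun _ => True) (aemeasurable_Psi hκm n)
    (ae_of_all _ fun _ => trivial)
  have h3 : Psi κE n v ≤ B / 2 := by
    refine hΨ.trans ?_
    calc 2 * ((2 : ℝ≥0∞) ^ n) ^ 3 * ∫⁻ o in obox 3 1, Psi κE n o
        ≤ 2 * ((2 : ℝ≥0∞) ^ n) ^ 3 * (3 * (2 : ℝ≥0∞) ^ (n + 1) * ε) := by
          gcongr
          exact (lintegral_Psi_le hκm n).trans (by gcongr)
      _ = A * ε := by rw [hA]; ring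
      _ = B / 2 := hAε
  have h4 : B / 2 < B := ENNReal.half_lt_self hB hBt
  refine ⟨v, E, ⟨hv, hEQ, hEc, hud, hcont, hnear, ?_, ?_⟩⟩
  · exact (le_add_self.trans h3).trans h4.le
  · have h5 : liminf (fun l => PS κE n l v) atTop < B := (le_self_add.trans h3).trans_lt h4
    exact (frequently_lt_of_liminf_lt (by isBoundedDefault) h5).mono fun l hl => hl.le

end Vale.Agent.P073.LOC330
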