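import Vale.Agent.P073.LOC330.Org2

/-!
# P073, block LOC, choice of the plates: one middle plane
-/

namespace Vale.Agent.P073.LOC330

open MeasureTheory Set Filter Topology Metric Vale.Agent.P073.St
open Vale.Agent.P073.SQ (ev)
open Vale.Agent.P073.AB (cl Idx pt edge eInt tiles EdgeOf RatGood)
open Vale.Agent.P073.HB (obox GoodSeg vx edgeSum)
open Vale.Agent.P073.LOC
open Vale.Agent.P073.LOC560 (dv isOpen_Q1 volume_Q1_ne_top isBounded_Q1 Org)
open Vale.Agent.P073.PK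
open scoped ENNReal

/-- the open unit square -/
def Uq : Set (Fin 2 → ℝ) := {u | ∀ i, 0 < u i ∧ u i < 1}

theorem isOpen_Uq : IsOpen Uq := by
  have : Uq = ⋂ i : Fin 2, {x : Fin 2 → ℝ | 0 < x i ∧ x i < 1} := by
    ext x; simp [Uq]
  rw [this]
  refine isOpen_iInter_of_finite fun i => ?_
  exact (isOpen_lt continuous_const (continuous_apply i)).inter
    (isOpen_lt (continuous_apply i) continuous_const)

theorem isBounded_Uq : Bornology.IsBounded Uq := by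
  refine (Metric.isBounded_closedBall (x := (0 : Fin 2 → ℝ)) (r := 1)).subset fun x hx => ?_
  rw [mem_closedBall_zero_iff, pi_norm_le_iff_of_nonneg zero_le_one]
  intro i
  rw [Real.norm_eq_abs, abs_le]
  have := hx i
  constructor <;> linarith [this.1, this.2]

theorem volume_Uq_le : volume Uq ≤ 1 := by
  have h : Uq ⊆ obox 2 1 := fun u hu i => ⟨(hu i).1.le, (hu i).2⟩
  refine (measure_mono h).trans ?_
  rw [HB.volume_obox]
  simp

theorem sec_mem_Q1 {c : ℝ} (hc : 0 < c ∧ c < 1) {u : Fin 2 → ℝ} :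
    sec 2 c u ∈ Q1 ↔ u ∈ Uq := by
  constructor
  · intro h l
    have := h ((2 : Fin 3).succAbove l)
    rwa [sec_succAbove] at this
  · intro h j
    rcases Fin.eq_self_or_eq_succAbove 2 j with rfl | ⟨l, rfl⟩
    · rw [sec_same]; exact hc
    · rw [sec_succAbove]; exact h l

theorem mid_eq (v : V) (n : ℕ) (z : ℤ) : mid v n z = v 2 + 1 / 2 ^ (n + 1) * ((2 * z + 1 : ℤ) : ℝ) := by
  rw [mid]
  push_cast
  ring

theorem mid_mem {v : V} {n : ℕ} (_hn : 3 ≤ n) (hv : ∀ i, 0 ≤ v i ∧ v i < 1 / 2 ^ n) {z : ℤ}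
    (h2 : 2 ≤ z) (h3 : z < 2 ^ n - 3) : 0 < mid v n z ∧ mid v n z < 1 := by
  have h4 : (2 : ℝ) ≤ z := by exact_mod_cast h2
  have h5 : (z : ℝ) ≤ 2 ^ n - 4 := by
    have : z + 1 ≤ 2 ^ n - 3 := h3
    have h6 : ((z + 1 : ℤ) : ℝ) ≤ ((2 ^ n - 3 : ℤ) : ℝ) := by exact_mod_cast this
    push_cast at h6
    linarith
  have hp : (0 : ℝ) < 2 ^ (n + 1) := by positivity
  obtain ⟨hv0, hv1⟩ := hv 2
  constructor
  · have : 0 < (2 * (z : ℝ) + 1) / 2 ^ (n + 1) := by positivity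
    rw [mid]; linarith
  · have e1 : (1 : ℝ) / 2 ^ n = 2 / 2 ^ (n + 1) := by rw [pow_succ]; field_simp
    have h6 : (2 * (z : ℝ) + 1) / 2 ^ (n + 1) ≤ (2 * (2 ^ n - 4) + 1) / 2 ^ (n + 1) := by
      gcongr
    have h7 : (2 * ((2 : ℝ) ^ n - 4) + 1) / 2 ^ (n + 1) + 2 / 2 ^ (n + 1) < 1 := by
      rw [← add_div, div_lt_one hp, pow_succ]
      linarith
    rw [mid]
    linarith

theorem mid_injective {v : V} {n : ℕ} {z z' : ℤ} (h : mid v n z = mid v n z') : z = z' := by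
  rw [mid, mid, add_right_inj, div_left_inj' (by positivity)] at h
  have : (z : ℝ) = z' := by linarith
  exact_mod_cast this

/-- The segments of the lattice in a plane of rational height are good. -/
theorem goodSeg_plane {v : V} {f : V → V} {F : V → Mat} (hr : RatGood v Q1 f F) {c : ℝ}
    (hc : ∃ r : ℚ, c = v 2 + r) (hc1 : 0 < c ∧ c < 1) {l : ℕ} {q : (Fin 2 → ℤ) × Fin 2}
    (hq : q ∈ edgesIn Uq (oth 2 v) (ms l)) :
    GoodSeg (fun u => f (sec 2 c u)) (secD (fun x => cl (F x)) 2 c) (ga (oth 2 v) (ms l) q)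
      (gv (ms l) q) := by
  obtain ⟨r, hr'⟩ := hc
  refine GoodSeg.sec ?_
  have h1 := hr (sec 2 c (ga (oth 2 v) (ms l) q))
    (sec 2 c (ga (oth 2 v) (ms l) q) + secL 2 (gv (ms l) q)) ?_ ?_ ?_
  · simpa using h1
  · intro j
    rcases Fin.eq_self_or_eq_succAbove 2 j with rfl | ⟨i, rfl⟩
    · exact ⟨r, by rw [sec_same, hr']⟩
    · refine ⟨(q.1 i : ℚ) / 2 ^ l, ?_⟩
      rw [sec_succAbove]
      simp only [ga, vx, oth, ms]
      push_cast
      ring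
  · intro j
    rcases Fin.eq_self_or_eq_succAbove 2 j with rfl | ⟨i, rfl⟩
    · exact ⟨r, by rw [Pi.add_apply, sec_same, secL_same, add_zero, hr']⟩
    · refine ⟨(q.1 i : ℚ) / 2 ^ l + if i = q.2 then 1 / 2 ^ l else 0, ?_⟩
      rw [Pi.add_apply, sec_succAbove, secL_succAbove]
      simp only [ga, gv, vx, HB.ev, oth, ms, Pi.single_apply]
      split_ifs
      · push_cast
        ring
      · push_cast
        ring
  · rw [segment_eq_image']
    rintro x ⟨t, ht, rfl⟩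
    have h2 := hq t ht
    have h3 := (sec_mem_Q1 hc1).2 h2
    rw [sec_segment] at h3
    simpa using h3

/-- The density in the plane. -/
theorem dens_sec_le (F : V → (V →L[ℝ] V)) {p : ℝ} (hp : 0 ≤ p) (E : Set V) {c : ℝ}
    (hc : 0 < c ∧ c < 1) (u : Fin 2 → ℝ) :
    dens (secD F 2 c) p Uq ((sec 2 c ⁻¹' E) ∪ ∅) u ≤ dens F p Q1 E (sec 2 c u) := by
  unfold dens
  by_cases h : u ∈ Uq \ ((sec 2 c ⁻¹' E) ∪ ∅)
  · have h1 : sec 2 c u ∈ Q1 \ E := ⟨(sec_mem_Q1 hc).2 h.1, fun h2 => h.2 (Or.inl h2)⟩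
    rw [indicator_of_mem h, indicator_of_mem h1]
    refine add_le_add le_rfl (ENNReal.rpow_le_rpow ?_ hp)
    rw [← ofReal_norm, ← ofReal_norm]
    exact ENNReal.ofReal_le_ofReal (norm_secD_le F 2 c u)
  · rw [indicator_of_notMem h]
    exact zero_le

theorem ofReal_ms (l : ℕ) : ENNReal.ofReal (ms l) = ((2 : ℝ≥0∞) ^ l)⁻¹ := by
  rw [ms, one_div, ENNReal.ofReal_inv_of_pos (by positivity), ENNReal.ofReal_pow (by norm_num)]
  norm_num

/-- the constants of the grid in the planes -/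
abbrev NN (j : ℕ) : ℕ := 2 ^ j

/-- **The good cells in one middle plane.** -/
theorem exists_plane {p δ₀ : ℝ} {δ B : ℝ≥0∞} {η₀ θ₀ M κ η t₀ lam : ℝ} {n m j : ℕ} {L : V →L[ℝ] V}
    {f : V → V} {F : V → Mat} {v : V} {E : Set V} {Λ : Set V}
    (hc : Consts p θ₀ M κ η t₀ lam (2 ^ j)) (hn : 3 ≤ n) (hN : Near p δ₀ L Λ f F)
    (h : OrgE p δ B η₀ n m L f F v E)
    (hlow : ∀ w : V, w 2 = 0 → 2 * θ₀ * ‖w‖ ≤ ‖L w‖) (hη₀ : η₀ ≤ θ₀) (hη₁ : η₀ ≤ 1)
    (hM : ‖L‖ + 1 ≤ M) {z' : ℤ} (h2 : 2 ≤ z') (h3 : z' < 2 ^ n - 3) {D K₀ : Set V}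
    (hD : IsClosed D) (hDE : ∀ x ∈ E, x 2 = mid v n z' → f x ∉ D) (hK₀ : NeglT 2 K₀)
    {ε : ℝ≥0∞} (hε : ε ≠ 0) :
    ∃ δ₁ d e m₀ : ℝ, 0 < δ₁ ∧ 0 < d ∧ 0 < e ∧ 0 < m₀ ∧ ∀ l : ℕ, ms l ≤ m₀ →
      PS (dens (fun x => cl (F x)) p Q1 E) n l v ≤ B →
      ∃ (Le : Finset ((Fin 2 → ℤ) × Fin 2)) (I J : Finset (Fin 2 → ℤ))
        (b : (Fin 2 → ℤ) → (Fin 2 → ℝ)), (∀ q, q ∈ Le ↔ q ∈ edgesIn Uq (oth 2 v) (ms l)) ∧
        GrdT (fun u => f (sec 2 (mid v n z') u)) (secD (fun x => cl (F x)) 2 (mid v n z'))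
          (sec 2 (mid v n z') ⁻¹' E) ∅ Uq D K₀ p θ₀ M κ η t₀ lam δ₁ d e (ms l) (2 ^ j)
          (oth 2 v) Le I J b ∧
        ((I \ J).card : ℝ≥0∞) * ENNReal.ofReal (((2 ^ j : ℕ) : ℝ) * ms l) ^ 2 ≤
          cntC 2 θ₀ t₀ lam (2 ^ j) * B + ε := by
  set c := mid v n z' with hcdef
  have hcm : 0 < c ∧ c < 1 := mid_mem hn h.org h2 h3
  set F' : V → (V →L[ℝ] V) := fun x => cl (F x) with hF'
  have hp0 : 0 ≤ p := by linarith [hc.p1]
  obtain ⟨g, hinv, hfc, hgc⟩ := hN.homeo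
  have hinj : InjOn f Q1 := fun x hx y hy hxy => by
    rw [← (hinv.1 x hx).2, ← (hinv.1 y hy).2, hxy]
  have hEc : IsCompact (sec 2 c ⁻¹' E) := (isClosedEmbedding_sec 2 c).isCompact_preimage h.comp
  have hEU : sec 2 c ⁻¹' E ⊆ Uq := fun u hu => (sec_mem_Q1 hcm).1 (h.sub hu)
  have hmaps : MapsTo (sec 2 c) Uq Q1 := fun u hu => (sec_mem_Q1 hcm).2 hu
  obtain ⟨δ₁, d, e, m₀, hδ₁, hd, he, hm₀, h4⟩ := exists_grdT (k := 2) (U := Uq)
    (g := fun u => f (sec 2 c u)) (G := secD F' 2 c) (E := sec 2 c ⁻¹' E) (E' := ∅) hc isOpen_Uq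
    isBounded_Uq (hfc.comp (continuous_sec 2 c).continuousOn hmaps)
    (fun u hu u' hu' huu => sec_injective 2 c (hinj (hmaps hu) (hmaps hu') huu))
    hEc isCompact_empty hEU (empty_subset _) (disjoint_empty _) (h.udiff.sec 2 c)
    (((h.cont.comp (continuous_sec 2 c).continuousOn (fun u hu => hu)).clm_comp
      continuousOn_const))
    (fun u hu w => by
      have h5 := below_two hlow ((h.near _ hu).trans hη₀) (secL 2 w) (secL_same 2 w)
      rw [norm_secL] at h5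
      exact h5)
    (fun u hu => by
      refine (norm_secD_le F' 2 c u).trans ?_
      have h5 := h.near _ hu
      have h6 : ‖F' (sec 2 c u)‖ ≤ ‖L‖ + ‖F' (sec 2 c u) - L‖ := by
        have : F' (sec 2 c u) = L + (F' (sec 2 c u) - L) := by abel
        calc ‖F' (sec 2 c u)‖ = ‖L + (F' (sec 2 c u) - L)‖ := by rw [← this]
          _ ≤ _ := norm_add_le _ _
      linarith)
    hD (by
      rw [Set.disjoint_left]
      rintro _ ⟨u, hu, rfl⟩
      exact hDE _ hu (sec_same 2 c u)) hK₀ hε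
  refine ⟨δ₁, d, e, m₀, hδ₁, hd, he, hm₀, fun l hl hPS => ?_⟩
  have hcr : ∃ r : ℚ, c = v 2 + r := ⟨(2 * z' + 1) / 2 ^ (n + 1), by
    rw [hcdef, mid]; push_cast; ring⟩
  have hsec : c = v 2 + 1 / 2 ^ (n + 1) * ((2 * z' + 1 : ℤ) : ℝ) := by
    rw [hcdef, mid_eq]
  refine h4 (ms l) (ms_pos l) hl (oth 2 v) B (fun q hq => goodSeg_plane h.rat hcr hcm hq) ?_ ?_
  · refine le_trans ?_ h.ints
    refine le_trans ?_ (ENNReal.le_tsum (2 * z' + 1))
    rw [planeInt, ← hsec]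
    exact lintegral_mono fun u => dens_sec_le F' hp0 E hcm u
  · refine le_trans ?_ hPS
    rw [PS, ofReal_ms]
    refine mul_le_mul' ?_ le_rfl
    refine le_trans ?_ (ENNReal.le_tsum (2 * z' + 1))
    rw [planeSum, ← hsec]
    unfold edgeSum
    refine ENNReal.tsum_le_tsum fun q => lintegral_mono fun t => ?_
    exact dens_sec_le F' hp0 E hcm _

end Vale.Agent.P073.LOC330
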