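import Vale.Agent.P073.LOC330.Sum

/-!
# P073, block LOC, choice of the plates: all the middle planes
-/

namespace Vale.Agent.P073.LOC330

open MeasureTheory Set Filter Topology Metric Vale.Agent.P073.St
open Vale.Agent.P073.SQ (ev)
open Vale.Agent.P073.AB (cl Idx pt edge eInt squ tiles EdgeOf RatGood)
open Vale.Agent.P073.HB (obox GoodSeg vx edgeSum)
open Vale.Agent.P073.LOC
open Vale.Agent.P073.LOC560 (isOpen_Q1 isBounded_Q1 core_subset)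
open Vale.Agent.P073.PK
open P073.Plate (pbox prel)
open scoped ENNReal

/-- the data of the middle plane `z'` -/
structure PData (p θ₀ M κ η t₀ lam : ℝ) (β : ℝ≥0∞) (n m n₂ j : ℕ) (f : V → V) (F : V → Mat) (v : V)
    (Λ E K K₀ : Set V) (z' : ℤ) (D : Set V) (δ₁ d e₀ : ℝ) (Le : Finset ((Fin 2 → ℤ) × Fin 2))
    (I J : Finset (Fin 2 → ℤ)) (b : (Fin 2 → ℤ) → (Fin 2 → ℝ)) : Prop where
  grd : GrdT (fun u => f (sec 2 (mid v n z') u)) (secD (fun x => cl (F x)) 2 (mid v n z'))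
    (sec 2 (mid v n z') ⁻¹' E) ∅ Uq D K₀ p θ₀ M κ η t₀ lam δ₁ d e₀ (ms (n₂ + j)) (2 ^ j)
    (oth 2 v) Le I J b
  le : ∀ q, q ∈ Le ↔ q ∈ edgesIn Uq (oth 2 v) (ms (n₂ + j))
  dset : DSet Λ K f v n E z' D
  thin : θ₀ * ms (n₂ + j) / 32 + M * ms n₂ ≤ e₀
  pos : ∀ ζ ∈ J, Pos2 n₂ m ζ
  card : ((I \ J).card : ℝ≥0∞) * ENNReal.ofReal (((2 ^ j : ℕ) : ℝ) * ms (n₂ + j)) ^ 2 ≤ β

theorem eventually_ms {a : ℝ} (ha : 0 < a) : ∀ᶠ l in atTop, ms l ≤ a := by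
  obtain ⟨n, hn⟩ := exists_pow_lt_of_lt_one ha (by norm_num : (1 / 2 : ℝ) < 1)
  filter_upwards [eventually_ge_atTop n] with l hl
  have h1 : ms l ≤ ms n := by
    rw [ms, ms]
    gcongr
    norm_num
  have h2 : ms n = (1 / 2 : ℝ) ^ n := by rw [ms, one_div_pow]
  rw [h2] at h1
  linarith

theorem exists_planes {p δ₀ : ℝ} {δ B : ℝ≥0∞} {η₀ θ₀ M κ η t₀ lam : ℝ} {n m j : ℕ} {L : V →L[ℝ] V}
    {f : V → V} {F : V → Mat} {v : V} {E : Set V} {Λ : Set V}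
    (hc : Consts p θ₀ M κ η t₀ lam (2 ^ j)) (hn : 3 ≤ n) (hN : Near p δ₀ L Λ f F)
    (h : OrgE p δ B η₀ n m L f F v E)
    (hlow : ∀ w : V, w 2 = 0 → 2 * θ₀ * ‖w‖ ≤ ‖L w‖) (hη₀ : η₀ ≤ θ₀) (hη₁ : η₀ ≤ 1)
    (hM : ‖L‖ + 1 ≤ M) {K : Set V} (hD : ∀ z' : ℤ, ∃ D : Set V, DSet Λ K f v n E z' D)
    {K₀ : Set V} (hK₀ : NeglT 2 K₀) {ε : ℝ≥0∞} (hε : ε ≠ 0) :
    ∃ n₂ : ℕ, m ≤ n₂ ∧ PS (dens (fun x => cl (F x)) p Q1 E) n (n₂ + j) v ≤ B ∧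
      ∀ z' : ℤ, 2 ≤ z' → z' < 2 ^ n - 3 → ∃ (D : Set V) (δ₁ d e₀ : ℝ)
        (Le : Finset ((Fin 2 → ℤ) × Fin 2)) (I J : Finset (Fin 2 → ℤ))
        (b : (Fin 2 → ℤ) → (Fin 2 → ℝ)), PData p θ₀ M κ η t₀ lam
          (cntC 2 θ₀ t₀ lam (2 ^ j) * B + ε + ε) n m n₂ j f F v Λ E K K₀ z' D δ₁ d e₀ Le I J b := by
  classical
  choose D hDs using hD
  -- the constants of all the planes
  have h1 : ∀ z' : ℤ, ∃ δ₁ d e m₀ : ℝ, 2 ≤ z' → z' < 2 ^ n - 3 →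
      (0 < δ₁ ∧ 0 < d ∧ 0 < e ∧ 0 < m₀ ∧ ∀ l : ℕ, ms l ≤ m₀ →
      PS (dens (fun x => cl (F x)) p Q1 E) n l v ≤ B →
      ∃ (Le : Finset ((Fin 2 → ℤ) × Fin 2)) (I J : Finset (Fin 2 → ℤ))
        (b : (Fin 2 → ℤ) → (Fin 2 → ℝ)), (∀ q, q ∈ Le ↔ q ∈ edgesIn Uq (oth 2 v) (ms l)) ∧
        GrdT (fun u => f (sec 2 (mid v n z') u)) (secD (fun x => cl (F x)) 2 (mid v n z'))
          (sec 2 (mid v n z') ⁻¹' E) ∅ Uq (D z') K₀ p θ₀ M κ η t₀ lam δ₁ d e (ms l) (2 ^ j)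
          (oth 2 v) Le I J b ∧
        ((I \ J).card : ℝ≥0∞) * ENNReal.ofReal (((2 ^ j : ℕ) : ℝ) * ms l) ^ 2 ≤
          cntC 2 θ₀ t₀ lam (2 ^ j) * B + ε) := by
    intro z'
    by_cases hz : 2 ≤ z' ∧ z' < 2 ^ n - 3
    · obtain ⟨δ₁, d, e, m₀, h2⟩ := exists_plane hc hn hN h hlow hη₀ hη₁ hM hz.1 hz.2
        (hDs z').closed (hDs z').base hK₀ hε
      exact ⟨δ₁, d, e, m₀, fun _ _ => h2⟩
    · exact ⟨1, 1, 1, 1, fun a b => absurd ⟨a, b⟩ hz⟩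
  choose δ₁ d e₀ m₀ h2 using h1
  have ho : ∀ l : Fin 2, 0 ≤ oth 2 v l ∧ oth 2 v l ≤ 1 := by
    intro l
    have h3 := h.org ((2 : Fin 3).succAbove l)
    have h4 : (1 : ℝ) / 2 ^ n ≤ 1 := by
      rw [div_le_one (by positivity)]
      exact one_le_pow₀ (by norm_num)
    exact ⟨h3.1, h3.2.le.trans h4⟩
  obtain ⟨r₀, hr₀, hthin⟩ := exists_thin (oth 2 v) m hε
  have hj0 : (0 : ℝ) < ((2 ^ j : ℕ) : ℝ) := by positivity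
  have hM0 : 0 < M := hc.M0
  have hθ0 : 0 < θ₀ := hc.θ0
  -- the choice of the generation
  have hev1 : ∀ᶠ l in atTop, ∀ z' ∈ Finset.Ico (2 : ℤ) (2 ^ n - 3),
      ms l ≤ m₀ z' ∧ (θ₀ / 32 + M * ((2 ^ j : ℕ) : ℝ)) * ms l ≤ e₀ z' := by
    rw [Finset.eventually_all]
    intro z' hz'
    obtain ⟨hz1, hz2⟩ := Finset.mem_Ico.1 hz'
    obtain ⟨-, -, he, hm₀, -⟩ := h2 z' hz1 hz2
    have hA : 0 < θ₀ / 32 + M * ((2 ^ j : ℕ) : ℝ) := by positivity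
    filter_upwards [eventually_ms hm₀, eventually_ms (div_pos he hA)] with l h3 h4
    refine ⟨h3, ?_⟩
    rwa [le_div_iff₀ hA, mul_comm] at h4
  have hev2 : ∀ᶠ l in atTop, ((2 ^ j : ℕ) : ℝ) * ms l ≤ r₀ := by
    filter_upwards [eventually_ms (div_pos hr₀ hj0)] with l h3
    rwa [le_div_iff₀ hj0, mul_comm] at h3
  obtain ⟨l, hPS, hl1, hl2, hl3⟩ := (h.sums.and_eventually
    (hev1.and (hev2.and (eventually_ge_atTop (m + j))))).exists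
  obtain ⟨n₂, rfl⟩ : ∃ n₂, l = n₂ + j := ⟨l - j, by omega⟩
  have hmn : m ≤ n₂ := by omega
  rw [ms_add] at hl2
  refine ⟨n₂, hmn, hPS, fun z' hz1 hz2 => ?_⟩
  obtain ⟨hl4, hl5⟩ := hl1 z' (Finset.mem_Ico.2 ⟨hz1, hz2⟩)
  obtain ⟨-, -, -, -, h3⟩ := h2 z' hz1 hz2
  obtain ⟨Le, I, J, b, hLe, hG, hcard⟩ := h3 (n₂ + j) hl4 hPS
  refine ⟨D z', δ₁ z', d z', e₀ z', Le, I, J.filter (Pos2 n₂ m), b, ?_⟩
  refine ⟨GrdT.sub hG (Finset.filter_subset _ _), hLe, hDs z', ?_,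
    fun ζ hζ => (Finset.mem_filter.1 hζ).2, ?_⟩
  · refine le_trans (le_of_eq ?_) hl5
    rw [← ms_add n₂ j]
    ring
  · have h5 := card_not_pos ho hmn (J := J) (fun ζ hζ => cell_Uq hG hζ)
    have h6 := h5.trans (hthin _ (ms_pos n₂) hl2)
    have h7 : I \ J.filter (Pos2 n₂ m) ⊆ (I \ J) ∪ J.filter fun ζ => ¬ Pos2 n₂ m ζ := by
      intro ζ hζ
      rw [Finset.mem_sdiff, Finset.mem_filter] at hζ
      rw [Finset.mem_union, Finset.mem_sdiff, Finset.mem_filter]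
      by_cases hJ : ζ ∈ J
      · exact Or.inr ⟨hJ, fun hp => hζ.2 ⟨hJ, hp⟩⟩
      · exact Or.inl ⟨hζ.1, hJ⟩
    have h8 := (Finset.card_le_card h7).trans (Finset.card_union_le _ _)
    rw [ms_add] at hcard ⊢
    calc (((I \ J.filter (Pos2 n₂ m)).card : ℕ) : ℝ≥0∞) * ENNReal.ofReal (ms n₂) ^ 2
        ≤ (((I \ J).card : ℝ≥0∞) + ((J.filter fun ζ => ¬ Pos2 n₂ m ζ).card : ℝ≥0∞)) *
            ENNReal.ofReal (ms n₂) ^ 2 := by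
          refine mul_le_mul' ?_ le_rfl
          exact_mod_cast h8
      _ = ((I \ J).card : ℝ≥0∞) * ENNReal.ofReal (ms n₂) ^ 2 +
            ((J.filter fun ζ => ¬ Pos2 n₂ m ζ).card : ℝ≥0∞) * ENNReal.ofReal (ms n₂) ^ 2 :=
          add_mul _ _ _
      _ ≤ _ := add_le_add hcard h6

end Vale.Agent.P073.LOC330
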