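import Vale.Agent.P073.LOC330.Geo

/-!
# P073, block LOC, choice of the plates: the plates in good position
-/

namespace Vale.Agent.P073.LOC330

open MeasureTheory Set Filter Topology Metric Vale.Agent.P073.St
open Vale.Agent.P073.SQ (ev)
open Vale.Agent.P073.AB (cl Idx pt edge eInt squ tiles EdgeOf RatGood)
open Vale.Agent.P073.HB (obox GoodSeg vx edgeSum)
open Vale.Agent.P073.LOC
open Vale.Agent.P073.PK
open P073.Plate (pbox prel)
open scoped ENNReal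

/-- the plate with index `ζ` in the middle plane `z'` -/
theorem emb_plate (n n₂ : ℕ) (z' : ℤ) (ζ : Fin 2 → ℤ) (l : Fin 2) :
    emb (Hz n n₂ z') ζ ((2 : Fin 3).succAbove l) = ζ l := emb_succAbove _ _ _

/-- the good position: the cell is well inside a square of generation `m` -/
def Pos2 (n₂ m : ℕ) (ζ : Fin 2 → ℤ) : Prop :=
  ∀ l, ∃ w : ℤ, 2 ^ (n₂ - m) * w ≤ ζ l - 1 ∧ ζ l + 2 ≤ 2 ^ (n₂ - m) * (w + 1)

theorem two_pow_eq {m n₂ : ℕ} (h : m ≤ n₂) : (2 : ℝ) ^ n₂ = 2 ^ m * 2 ^ (n₂ - m) := by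
  rw [← pow_add, Nat.add_sub_cancel' h]

theorem lone {v : V} {n n₂ m : ℕ} {z' : ℤ} {ζ : Fin 2 → ℤ} (hn : n + 1 ≤ m) (hm : m ≤ n₂)
    (h : Pos2 n₂ m ζ) :
    ∃ w, pbox v (plq n₂ (emb (Hz n n₂ z') ζ)) (-(1 / 2 ^ n₂)) 0 ⊆ squ v ((m, w), 2) := by
  choose w hw1 hw2 using h
  have h2m : (0 : ℝ) < 2 ^ m := by positivity
  have h2a : (0 : ℝ) < 2 ^ (n₂ - m) := by positivity
  refine ⟨emb (Hz n m z') w, fun x hx => ?_⟩
  obtain ⟨h1, h2⟩ := hx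
  have h3 : x 2 = mid v n z' := by
    have h4 : x 2 - (v 2 + ((emb (Hz n n₂ z') ζ 2 : ℤ) : ℝ) / 2 ^ n₂) = 0 :=
      abs_nonpos_iff.1 h1
    rw [emb_two] at h4
    rw [← ht_Hz (hn.trans hm) z', ht]
    linarith
  refine ⟨?_, fun k hk => ?_⟩
  · show x 2 = v 2 + ((emb (Hz n m z') w 2 : ℤ) : ℝ) / 2 ^ m
    rw [emb_two, h3, ← ht_Hz hn z', ht]
  · have hk' : k ≠ 2 := hk
    have h5 := h2 k hk
    obtain ⟨l, rfl⟩ := exists_succAbove hk'
    simp only [plq, emb_succAbove] at h5 ⊢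
    have a1 : ((2 : ℝ) ^ (n₂ - m)) * w l ≤ ζ l - 1 := by exact_mod_cast hw1 l
    have a2 : (ζ l : ℝ) + 2 ≤ (2 : ℝ) ^ (n₂ - m) * (w l + 1) := by exact_mod_cast hw2 l
    have e1 : (w l : ℝ) / 2 ^ m = (2 ^ (n₂ - m) * w l) / 2 ^ n₂ := by
      rw [two_pow_eq hm]; field_simp
    have e2 : ((w l : ℝ) + 1) / 2 ^ m = (2 ^ (n₂ - m) * (w l + 1)) / 2 ^ n₂ := by
      rw [two_pow_eq hm]; field_simp
    have b1 : (2 ^ (n₂ - m) * (w l : ℝ)) / 2 ^ n₂ ≤ (ζ l - 1) / 2 ^ n₂ := by gcongr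
    have b2 : ((ζ l : ℝ) + 2) / 2 ^ n₂ ≤ (2 ^ (n₂ - m) * (w l + 1)) / 2 ^ n₂ := by gcongr
    have c1 : ((ζ l : ℝ) - 1) / 2 ^ n₂ = ζ l / 2 ^ n₂ - 1 / 2 ^ n₂ := sub_div _ _ _
    have c2 : ((ζ l : ℝ) + 2) / 2 ^ n₂ = (ζ l + 1) / 2 ^ n₂ + 1 / 2 ^ n₂ := by
      rw [← add_div]; ring_nf
    rw [e1, e2]
    constructor <;> linarith [h5.1, h5.2]

/-- the core in the plane -/
def core2 (v : V) (n : ℕ) : Set (Fin 2 → ℝ) :=
  {u | ∀ l, oth 2 v l + 2 / 2 ^ n ≤ u l ∧ u l ≤ oth 2 v l + (2 ^ n - 3) / 2 ^ n}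

theorem mem_core {v x : V} {n : ℕ} : x ∈ core v n ↔
    (v 2 + 2 / 2 ^ n ≤ x 2 ∧ x 2 ≤ v 2 + (2 ^ n - 3) / 2 ^ n) ∧ oth 2 x ∈ core2 v n := by
  constructor
  · intro h
    exact ⟨h 2, fun l => h _⟩
  · rintro ⟨h1, h2⟩ i
    rcases Fin.eq_self_or_eq_succAbove 2 i with rfl | ⟨l, rfl⟩
    · exact h1
    · exact h2 l

theorem mid_core {v : V} {n : ℕ} {z : ℤ} (h2 : 2 ≤ z) (h3 : z < 2 ^ n - 3) :
    v 2 + 2 / 2 ^ n ≤ mid v n z ∧ mid v n z ≤ v 2 + (2 ^ n - 3) / 2 ^ n := by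
  have h4 : (2 : ℝ) ≤ z := by exact_mod_cast h2
  have h5 : (z : ℝ) ≤ 2 ^ n - 4 := by
    have : z + 1 ≤ 2 ^ n - 3 := h3
    have h6 : ((z + 1 : ℤ) : ℝ) ≤ ((2 ^ n - 3 : ℤ) : ℝ) := by exact_mod_cast this
    push_cast at h6
    linarith
  have hp : (0 : ℝ) < 2 ^ n := by positivity
  have e1 : (2 * (z : ℝ) + 1) / 2 ^ (n + 1) = (z + 1 / 2) / 2 ^ n := by
    rw [pow_succ]; field_simp
  rw [mid, e1]
  constructor
  · gcongr; linarith
  · gcongr; linarith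

/-- a cell in good position which meets the core is contained in the core -/
theorem cell_core {v : V} {n n₂ m : ℕ} (hn : n ≤ m) (hm : m ≤ n₂) {ζ : Fin 2 → ℤ}
    (h : Pos2 n₂ m ζ) {u : Fin 2 → ℝ} (hu : u ∈ closedBall (ctr (oth 2 v) (ms n₂) ζ) (ms n₂ / 2))
    (hc : u ∈ core2 v n) : closedBall (ctr (oth 2 v) (ms n₂) ζ) (ms n₂ / 2) ⊆ core2 v n := by
  rw [mem_cell (ms_pos n₂).le] at hu
  intro u' hu' l
  rw [mem_cell (ms_pos n₂).le] at hu'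
  obtain ⟨w, hw1, hw2⟩ := h l
  have ha : (0 : ℤ) < 2 ^ (n₂ - m) := by positivity
  have hb : (2 : ℝ) ^ n₂ = 2 ^ n * (2 ^ (m - n) * 2 ^ (n₂ - m)) := by
    rw [two_pow_eq hm, two_pow_eq hn]; ring
  have hp : (0 : ℝ) < 2 ^ n₂ := by positivity
  have e1 : (2 : ℝ) / 2 ^ n = ms n₂ * ((2 ^ (n₂ - m) * (2 * 2 ^ (m - n)) : ℤ) : ℝ) := by
    rw [ms, hb]; push_cast; field_simp
  have e2 : ((2 : ℝ) ^ n - 3) / 2 ^ n =
      ms n₂ * ((2 ^ (n₂ - m) * ((2 ^ n - 3) * 2 ^ (m - n)) : ℤ) : ℝ) := by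
    rw [ms, hb]; push_cast; field_simp
  have hcl := hc l
  have hul := hu l
  have hul' := hu' l
  rw [e1, e2] at hcl ⊢
  have hms := ms_pos n₂
  have a1 : (2 ^ (n₂ - m) * (2 * 2 ^ (m - n)) : ℤ) ≤ ζ l + 1 := by
    have : ms n₂ * ((2 ^ (n₂ - m) * (2 * 2 ^ (m - n)) : ℤ) : ℝ) ≤ ms n₂ * (ζ l + 1) := by
      linarith [hcl.1, hul.2]
    have := le_of_mul_le_mul_left this hms
    exact_mod_cast this
  have a2 : ζ l ≤ (2 ^ (n₂ - m) * ((2 ^ n - 3) * 2 ^ (m - n)) : ℤ) := by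
    have : ms n₂ * (ζ l : ℝ) ≤
        ms n₂ * ((2 ^ (n₂ - m) * ((2 ^ n - 3) * 2 ^ (m - n)) : ℤ) : ℝ) := by
      linarith [hcl.2, hul.1]
    have := le_of_mul_le_mul_left this hms
    exact_mod_cast this
  have b1 : (2 * 2 ^ (m - n) : ℤ) < w + 1 :=
    lt_of_mul_lt_mul_left (by linarith) ha.le
  have b2 : w < (2 ^ n - 3) * 2 ^ (m - n) :=
    lt_of_mul_lt_mul_left (by linarith) ha.le
  have c1 : (2 ^ (n₂ - m) * (2 * 2 ^ (m - n)) : ℤ) ≤ ζ l := by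
    have : (2 ^ (n₂ - m) * (2 * 2 ^ (m - n)) : ℤ) ≤ 2 ^ (n₂ - m) * w :=
      mul_le_mul_of_nonneg_left (by linarith) ha.le
    linarith
  have c2 : ζ l + 1 ≤ (2 ^ (n₂ - m) * ((2 ^ n - 3) * 2 ^ (m - n)) : ℤ) := by
    have : (2 ^ (n₂ - m) * (w + 1) : ℤ) ≤ 2 ^ (n₂ - m) * ((2 ^ n - 3) * 2 ^ (m - n)) :=
      mul_le_mul_of_nonneg_left (by linarith) ha.le
    linarith
  have d1 : ms n₂ * ((2 ^ (n₂ - m) * (2 * 2 ^ (m - n)) : ℤ) : ℝ) ≤ ms n₂ * ζ l :=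
    mul_le_mul_of_nonneg_left (by exact_mod_cast c1) hms.le
  have d2 : ms n₂ * ((ζ l : ℝ) + 1) ≤
      ms n₂ * ((2 ^ (n₂ - m) * ((2 ^ n - 3) * 2 ^ (m - n)) : ℤ) : ℝ) :=
    mul_le_mul_of_nonneg_left (by exact_mod_cast c2) hms.le
  constructor <;> linarith [hul'.1, hul'.2]

theorem squ_core {v : V} {n n₂ : ℕ} (hn : n + 1 ≤ n₂) {z' : ℤ} (h2 : 2 ≤ z') (h3 : z' < 2 ^ n - 3)
    {ζ : Fin 2 → ℤ} (h : closedBall (ctr (oth 2 v) (ms n₂) ζ) (ms n₂ / 2) ⊆ core2 v n) :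
    squ v (plq n₂ (emb (Hz n n₂ z') ζ)) ⊆ core v n := by
  intro x hx
  rw [mem_squ, emb_two, ht_Hz hn, o2_emb] at hx
  exact mem_core.2 ⟨hx.1 ▸ mid_core h2 h3, h hx.2⟩

/-! ### The cells which are not in good position -/

/-- the lines of generation `m` -/
def KL (o : Fin 2 → ℝ) (m : ℕ) : Set (Fin 2 → ℝ) :=
  closedBall 0 1 ∩ ⋃ l : Fin 2, ⋃ w ∈ Finset.Icc (-2 ^ m : ℤ) (2 ^ m), {u | u l = o l + ms m * w}

theorem isCompact_KL (o : Fin 2 → ℝ) (m : ℕ) : IsCompact (KL o m) := by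
  refine (isCompact_closedBall _ _).inter_right ?_
  refine isClosed_iUnion_of_finite fun l => ?_
  refine (Finset.finite_toSet _).isClosed_biUnion fun w _ => ?_
  exact isClosed_eq (continuous_apply l) continuous_const

theorem volume_KL (o : Fin 2 → ℝ) (m : ℕ) : volume (KL o m) = 0 := by
  refine measure_mono_null inter_subset_right ?_
  rw [measure_iUnion_null_iff]
  intro l
  refine (measure_biUnion_null_iff (Finset.countable_toSet (Finset.Icc (-2 ^ m : ℤ) (2 ^ m)))).2 ?_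
  intro w _
  exact Measure.pi_hyperplane (fun _ : Fin 2 => (volume : Measure ℝ)) l _

theorem exists_thin (o : Fin 2 → ℝ) (m : ℕ) {ε : ℝ≥0∞} (hε : ε ≠ 0) : ∃ r₀ : ℝ, 0 < r₀ ∧
    ∀ r : ℝ, 0 < r → r ≤ r₀ → volume (cthickening r (KL o m)) ≤ ε := by
  have h1 := tendsto_measure_cthickening_of_isCompact (μ := (volume : Measure (Fin 2 → ℝ)))
    (isCompact_KL o m)
  rw [volume_KL] at h1
  obtain ⟨s, hs, h2⟩ := Metric.eventually_nhds_iff.1 (h1.eventually (gt_mem_nhds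
    (pos_iff_ne_zero.2 hε)))
  refine ⟨s / 2, by positivity, fun r hr hrs => (h2 ?_).le⟩
  rw [Real.dist_eq, sub_zero, abs_of_pos hr]
  linarith

/-- a cell which is not in good position is near the lines -/
theorem cell_KL {o : Fin 2 → ℝ} (ho : ∀ l, 0 ≤ o l ∧ o l ≤ 1) {n₂ m : ℕ} (hm : m ≤ n₂)
    {ζ : Fin 2 → ℤ} (h : ¬ Pos2 n₂ m ζ)
    (hU : closedBall (ctr o (ms n₂) ζ) (ms n₂ / 2) ⊆ Uq) :
    closedBall (ctr o (ms n₂) ζ) (ms n₂ / 2) ⊆ cthickening (ms n₂) (KL o m) := by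
  have hms := ms_pos n₂
  unfold Pos2 at h
  push Not at h
  obtain ⟨l, hl⟩ := h
  have ha : (0 : ℤ) < 2 ^ (n₂ - m) := by positivity
  obtain ⟨w, hw⟩ : ∃ w : ℤ, 2 ^ (n₂ - m) * w = ζ l ∨ 2 ^ (n₂ - m) * w = ζ l + 1 := by
    have h1 : (2 ^ (n₂ - m) : ℤ) * (ζ l / 2 ^ (n₂ - m)) ≤ ζ l := Int.mul_ediv_self_le ha.ne'
    have h2 : ζ l < (2 ^ (n₂ - m) : ℤ) * (ζ l / 2 ^ (n₂ - m)) + 2 ^ (n₂ - m) :=
      Int.lt_mul_ediv_self_add ha
    rcases h1.lt_or_eq with h3 | h3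
    · refine ⟨ζ l / 2 ^ (n₂ - m) + 1, Or.inr ?_⟩
      have h4 := hl (ζ l / 2 ^ (n₂ - m)) (by linarith)
      rw [mul_add, mul_one] at h4 ⊢
      omega
    · exact ⟨ζ l / 2 ^ (n₂ - m), Or.inl h3⟩
  -- the point of the line
  set s : ℝ := o l + ms m * w with hs
  have e1 : ms m * (w : ℝ) = ms n₂ * ((2 ^ (n₂ - m) * w : ℤ) : ℝ) := by
    rw [ms, ms, two_pow_eq hm]; push_cast; field_simp
  have hs' : o l + ms n₂ * ζ l ≤ s ∧ s ≤ o l + ms n₂ * (ζ l + 1) := by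
    rw [hs, e1]
    rcases hw with hw | hw
    · rw [hw]
      constructor
      · exact le_rfl
      · nlinarith
    · rw [hw]
      push_cast
      constructor
      · nlinarith
      · exact le_rfl
  intro u hu
  have hu' := (mem_cell hms.le).1 hu
  have h5 : Function.update u l s ∈ closedBall (ctr o (ms n₂) ζ) (ms n₂ / 2) := by
    rw [mem_cell hms.le]
    intro i
    by_cases hi : i = l
    · subst hi
      rw [Function.update_self]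
      exact hs'
    · rw [Function.update_of_ne hi]
      exact hu' i
  have h6 := hU h5
  refine mem_cthickening_of_dist_le _ (Function.update u l s) _ _ ⟨?_, ?_⟩ ?_
  · rw [mem_closedBall_zero_iff, pi_norm_le_iff_of_nonneg zero_le_one]
    intro i
    rw [Real.norm_eq_abs, abs_le]
    have := h6 i
    constructor <;> linarith [this.1, this.2]
  · simp only [mem_iUnion]
    refine ⟨l, w, ?_, ?_⟩
    · have h7 := h6 l
      rw [Function.update_self, hs] at h7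
      have h8 := ho l
      have h9 : ms m * (w : ℝ) < 1 := by linarith [h7.2]
      have h10 : -1 < ms m * (w : ℝ) := by linarith [h7.1]
      have hp : (0 : ℝ) < 2 ^ m := by positivity
      rw [ms, one_div, inv_mul_eq_div, div_lt_one hp] at h9
      rw [ms, one_div, inv_mul_eq_div, lt_div_iff₀ hp] at h10
      rw [Finset.mem_Icc]
      constructor
      · have : ((-2 ^ m : ℤ) : ℝ) < w := by push_cast; linarith
        exact (by exact_mod_cast this : (-2 ^ m : ℤ) < w).le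
      · have : (w : ℝ) < ((2 ^ m : ℤ) : ℝ) := by push_cast; linarith
        exact (by exact_mod_cast this : w < (2 ^ m : ℤ)).le
    · rw [mem_ofPred_eq, Function.update_self]
  · rw [dist_pi_le_iff hms.le]
    intro i
    by_cases hi : i = l
    · subst hi
      rw [Function.update_self, Real.dist_eq, abs_le]
      have := hu' i
      constructor <;> linarith [this.1, this.2, hs'.1, hs'.2]
    · rw [Function.update_of_ne hi, dist_self]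
      exact hms.le

open Classical in
/-- **the number of cells which are not in good position** -/
theorem card_not_pos {o : Fin 2 → ℝ} (ho : ∀ l, 0 ≤ o l ∧ o l ≤ 1) {n₂ m : ℕ} (hm : m ≤ n₂)
    {J : Finset (Fin 2 → ℤ)} (hU : ∀ ζ ∈ J, closedBall (ctr o (ms n₂) ζ) (ms n₂ / 2) ⊆ Uq) :
    ((J.filter fun ζ => ¬ Pos2 n₂ m ζ).card : ℝ≥0∞) * ENNReal.ofReal (ms n₂) ^ 2 ≤
      volume (cthickening (ms n₂) (KL o m)) := by
  have hms := ms_pos n₂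
  have h1 := sum_lintegral_cell_le (o := o) hms (J.filter fun ζ => ¬ Pos2 n₂ m ζ)
    (U := cthickening (ms n₂) (KL o m)) (fun ζ hζ =>
      cell_KL ho hm (Finset.mem_filter.1 hζ).2 (hU ζ (Finset.mem_filter.1 hζ).1)) (fun _ => 1)
  simp only [setLIntegral_const, one_mul, volume_cellk hms, Finset.sum_const, nsmul_eq_mul] at h1
  exact h1

end Vale.Agent.P073.LOC330
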