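import Vale.Agent.P073.LOC330.Geo
import Vale.Agent.P073.AB.Graph907
import Vale.Agent.P073.AB.Tiles907
import Vale.Agent.P073.LOC560.En

/-!
# P073, block LOC, choice of the plates: the closed sets and the negligible set in the target
-/

namespace Vale.Agent.P073.LOC330

open MeasureTheory Set Filter Topology Metric Vale.Agent.P073.St
open Vale.Agent.P073.SQ (ev)
open Vale.Agent.P073.AB (cl Idx pt edge eInt squ tiles EdgeOf RatGood)
open Vale.Agent.P073.HB (obox GoodSeg vx edgeSum)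
open Vale.Agent.P073.LOC
open Vale.Agent.P073.LOC560 (isOpen_Q1 isBounded_Q1 core_subset tile_edge_subset)
open Vale.Agent.P073.PK
open scoped ENNReal

theorem isInv_injOn {Λ : Set V} {f h : V → V} (hi : IsInv Q1 Λ f h) : InjOn f Q1 :=
  fun x hx y hy hxy => by rw [← (hi.1 x hx).2, ← (hi.1 y hy).2, hxy]

/-- the image of an open set -/
theorem isOpen_image {Λ : Set V} {f h : V → V} (hΛ : IsOpen Λ) (hi : IsInv Q1 Λ f h)
    (hc : ContinuousOn h Λ) {O : Set V} (hO : IsOpen O) (hOQ : O ⊆ Q1) : IsOpen (f '' O) := by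
  have h1 : f '' O = Λ ∩ h ⁻¹' O := by
    ext y
    constructor
    · rintro ⟨x, hx, rfl⟩
      have := hi.1 x (hOQ hx)
      exact ⟨this.1, by rw [mem_preimage, this.2]; exact hx⟩
    · rintro ⟨hy, hy'⟩
      exact ⟨h y, hy', (hi.2 y hy).2⟩
  rw [h1]
  exact hc.isOpen_inter_preimage hΛ hO

/-- The properties of the closed set `D` for the plane `z'`. -/
structure DSet (Λ K : Set V) (f : V → V) (v : V) (n : ℕ) (E : Set V) (z' : ℤ) (D : Set V) :
    Prop where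
  closed : IsClosed D
  base : ∀ x ∈ E, x 2 = mid v n z' → f x ∉ D
  inside : ∀ y, y ∉ D → y ∈ Λ
  far : ∀ x ∈ Q1, x ∉ K → f x ∈ D
  other : ∀ x ∈ Q1, ∀ z'' : ℤ, 2 ≤ z'' → z'' < 2 ^ n - 3 → z'' ≠ z' → x 2 = mid v n z'' → f x ∈ D

theorem exists_D {Λ : Set V} {f : V → V} (hΛ : IsOpen Λ) (hf : IsHomeo Q1 Λ f) {E : Set V}
    (hE : IsCompact E) (hEQ : E ⊆ Q1) (v : V) (n : ℕ) :
    ∃ K : Set V, IsCompact K ∧ K ⊆ Q1 ∧ ∀ z' : ℤ, ∃ D : Set V, DSet Λ K f v n E z' D := by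
  obtain ⟨h, hi, hfc, hhc⟩ := hf
  obtain ⟨s, hs, hsQ⟩ := hE.exists_cthickening_subset_open isOpen_Q1 hEQ
  set K := cthickening s E with hK
  have hKc : IsCompact K := hE.cthickening
  set O := thickening s E with hO
  have hOK : O ⊆ K := thickening_subset_cthickening s E
  have hOQ : O ⊆ Q1 := hOK.trans hsQ
  have hEO : E ⊆ O := self_subset_thickening hs E
  have hinj := isInv_injOn hi
  refine ⟨K, hKc, hsQ, fun z' => ?_⟩
  set P : ℤ → Set V := fun z'' => K ∩ {x | x 2 = mid v n z''} with hP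
  have hPc : ∀ z'', IsCompact (P z'') := fun z'' =>
    hKc.inter_right (isClosed_eq (continuous_apply 2) continuous_const)
  refine ⟨(f '' O)ᶜ ∪ ⋃ z'' ∈ (Finset.Ico (2 : ℤ) (2 ^ n - 3)).erase z', f '' P z'', ?_, ?_, ?_,
    ?_, ?_⟩
  · refine (isOpen_image hΛ hi hhc isOpen_thickening hOQ).isClosed_compl.union ?_
    refine (Finset.finite_toSet _).isClosed_biUnion fun z'' _ => ?_
    exact ((hPc z'').image_of_continuousOn (hfc.mono (inter_subset_left.trans hsQ))).isClosed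
  · rintro x hx hx2 (h1 | h1)
    · exact h1 (mem_image_of_mem f (hEO hx))
    · simp only [mem_iUnion] at h1
      obtain ⟨z'', hz'', y, hy, hyx⟩ := h1
      have h2 : y = x := hinj (hsQ hy.1) (hEQ hx) hyx
      subst h2
      have h3 : mid v n z'' = mid v n z' := by rw [← hx2]; exact hy.2.symm
      exact (Finset.mem_erase.1 hz'').1 (mid_injective h3)
  · intro y hy
    rw [mem_union, not_or] at hy
    obtain ⟨x, hx, rfl⟩ := not_not.1 hy.1
    exact (hi.1 x (hOQ hx)).1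
  · intro x hx hxK
    left
    rintro ⟨y, hy, hyx⟩
    exact hxK (hOK (hinj (hOQ hy) hx hyx ▸ hy))
  · intro x hx z'' h2 h3 hne hx2
    by_cases hxK : x ∈ K
    · right
      simp only [mem_iUnion]
      exact ⟨z'', Finset.mem_erase.2 ⟨hne, Finset.mem_Ico.2 ⟨h2, h3⟩⟩,
        mem_image_of_mem f ⟨hxK, hx2⟩⟩
    · left
      rintro ⟨y, hy, hyx⟩
      exact hxK (hOK (hinj (hOQ hy) hx hyx ▸ hy))

/-- The image of a dyadic edge. -/
theorem neglT_edge {v : V} {f : V → V} {F : V → Mat} (hr : RatGood v Q1 f F) {e : Idx × Fin 3}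
    (he : edge v e ⊆ Q1) : NeglT 2 (f '' edge v e) := by
  have h1 : GoodSeg f (fun x => cl (F x)) (pt v e.1.1 e.1.2)
      (pt v e.1.1 e.1.2 + (1 / 2 ^ e.1.1 : ℝ) • ev e.2 - pt v e.1.1 e.1.2) := by
    refine hr _ _ (fun k => ⟨(e.1.2 k : ℚ) / 2 ^ e.1.1, ?_⟩) (fun k => ?_) he
    · simp only [pt]
      push_cast
      ring
    · refine ⟨(e.1.2 k : ℚ) / 2 ^ e.1.1 + if k = e.2 then 1 / 2 ^ e.1.1 else 0, ?_⟩
      simp only [pt, ev, Pi.add_apply, Pi.smul_apply, Pi.single_apply, smul_eq_mul]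
      split_ifs <;> · push_cast; ring
  have h2 := neglT_segment h1 (le_refl 2)
  refine h2.mono ?_
  rintro _ ⟨x, hx, rfl⟩
  rw [edge, segment_eq_image'] at hx
  obtain ⟨t, ht, rfl⟩ := hx
  exact ⟨t, ht, rfl⟩

theorem finite_core_edges {v : V} {n m : ℕ} (hv : ∀ i, 0 ≤ v i ∧ v i < 1 / 2 ^ n) :
    {e : Idx × Fin 3 | e.1.1 = m ∧ edge v e ⊆ core v n}.Finite := by
  have h1 := (finite_edgesIn isBounded_Q1 v (ms_pos m)).image
    (fun l : (Fin 3 → ℤ) × Fin 3 => (((m, l.1), l.2) : Idx × Fin 3))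
  refine h1.subset ?_
  rintro ⟨⟨m', z⟩, i⟩ ⟨rfl, he⟩
  refine ⟨(z, i), fun t ht => ?_, rfl⟩
  exact core_subset hv (he (mem_edge_iff.2 ⟨t, ht, rfl⟩))

theorem nonempty_Q1 : Q1.Nonempty := ⟨fun _ => 1 / 2, fun _ => by constructor <;> norm_num⟩

/-- The negligible set. -/
theorem exists_K₀ {n m : ℕ} {v : V} {f : V → V} {F : V → Mat} (hr : RatGood v Q1 f F)
    (hv : ∀ i, 0 ≤ v i ∧ v i < 1 / 2 ^ n) {K : Set V} (hK : IsCompact K) (hKQ : K ⊆ Q1) :
    ∃ K₀ : Set V, NeglT 2 K₀ ∧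
      (∀ e : Idx × Fin 3, (∃ q ∈ tiles Q1 n v, EdgeOf e q) → (edge v e ∩ K).Nonempty →
        f '' edge v e ⊆ K₀) ∧
      ∀ e : Idx × Fin 3, e.1.1 = m → edge v e ⊆ core v n → f '' edge v e ⊆ K₀ := by
  have hpart := (AB.specTiles Q1 n v isOpen_Q1 isBounded_Q1 nonempty_Q1).2.1
  have hf1 := AB.Gr.finite_edges hpart hKQ hK
  have hf2 := finite_core_edges (m := m) hv
  refine ⟨⋃ e ∈ hf1.toFinset ∪ hf2.toFinset, f '' edge v e, ?_, ?_, ?_⟩
  · refine NeglT.biUnion _ fun e he => neglT_edge hr ?_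
    rw [Finset.mem_union, Finite.mem_toFinset, Finite.mem_toFinset] at he
    rcases he with he | he
    · exact tile_edge_subset isOpen_Q1 isBounded_Q1 he.1
    · exact he.2.trans (core_subset hv)
  · intro e he hne
    refine subset_biUnion_of_mem (u := fun e => f '' edge v e) ?_
    rw [SetLike.mem_coe, Finset.mem_union]
    exact Or.inl (hf1.mem_toFinset.2 ⟨he, hne⟩)
  · intro e he hec
    refine subset_biUnion_of_mem (u := fun e => f '' edge v e) ?_
    rw [SetLike.mem_coe, Finset.mem_union]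
    exact Or.inr (hf2.mem_toFinset.2 ⟨he, hec⟩)

end Vale.Agent.P073.LOC330
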