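import Vale.Agent.P073.LOC330.Fat
import Vale.Agent.P073.LOC330.Pos

/-!
# P073, block LOC, choice of the plates: the sums over the complement of the plates
-/

namespace Vale.Agent.P073.LOC330

open MeasureTheory Set Filter Topology Metric Vale.Agent.P073.St
open Vale.Agent.P073.SQ (ev)
open Vale.Agent.P073.AB (cl Idx pt edge eInt squ tiles EdgeOf RatGood)
open Vale.Agent.P073.HB (obox GoodSeg vx edgeSum)
open Vale.Agent.P073.LOC
open Vale.Agent.P073.LOC560 (isOpen_Q1 isBounded_Q1 core_subset)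
open Vale.Agent.P073.PK
open P073.Plate (pbox prel)
open scoped ENNReal

/-- Fewer selected cells. -/
theorem GrdT.sub {k : ℕ} {Y : Type*} [NormedAddCommGroup Y] [NormedSpace ℝ Y]
    {g : (Fin k → ℝ) → Y} {G : (Fin k → ℝ) → ((Fin k → ℝ) →L[ℝ] Y)}
    {E E' U : Set (Fin k → ℝ)} {D K₀ : Set Y} {p θ M κ η t₀ lam δ d e m : ℝ} {N : ℕ}
    {o : Fin k → ℝ} {L : Finset ((Fin k → ℤ) × Fin k)} {I J J' : Finset (Fin k → ℤ)}
    {b : (Fin k → ℤ) → (Fin k → ℝ)}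
    (h : GrdT g G E E' U D K₀ p θ M κ η t₀ lam δ d e m N o L I J b) (hJ : J' ⊆ J) :
    GrdT g G E E' U D K₀ p θ M κ η t₀ lam δ d e m N o L I J' b :=
  { h with
    JI := hJ.trans h.JI
    sel := fun n hn => h.sel n (hJ hn)
    selT := fun n hn => h.selT n (hJ hn) }

section org

variable {p δ₀ : ℝ} {δ B : ℝ≥0∞} {η₀ : ℝ} {n m : ℕ} {L : V →L[ℝ] V}
  {f : V → V} {F : V → Mat} {v : V} {E : Set V}

theorem OrgE.plane_int (h : OrgE p δ B η₀ n m L f F v E) (hp0 : 0 ≤ p) (hn : 3 ≤ n) {z' : ℤ}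
    (h2 : 2 ≤ z') (h3 : z' < 2 ^ n - 3) :
    ∫⁻ u, dens (secD (fun x => cl (F x)) 2 (mid v n z')) p Uq
      (sec 2 (mid v n z') ⁻¹' E ∪ ∅) u ≤ B := by
  have hcm := mid_mem hn h.org h2 h3
  refine le_trans ?_ h.ints
  refine le_trans ?_ (ENNReal.le_tsum (2 * z' + 1))
  rw [planeInt, ← mid_eq]
  exact lintegral_mono fun u => dens_sec_le _ hp0 E hcm u

theorem OrgE.plane_sum (h : OrgE p δ B η₀ n m L f F v E) (hp0 : 0 ≤ p) (hn : 3 ≤ n) {z' : ℤ}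
    (h2 : 2 ≤ z') (h3 : z' < 2 ^ n - 3) {l : ℕ}
    (hPS : PS (dens (fun x => cl (F x)) p Q1 E) n l v ≤ B) :
    edgeSum (dens (secD (fun x => cl (F x)) 2 (mid v n z')) p Uq
      (sec 2 (mid v n z') ⁻¹' E ∪ ∅)) (oth 2 v) (ms l) * ENNReal.ofReal (ms l) ^ 2 ≤ B := by
  have hcm := mid_mem hn h.org h2 h3
  refine le_trans ?_ hPS
  rw [PS, ofReal_ms]
  refine mul_le_mul' ?_ le_rfl
  refine le_trans ?_ (ENNReal.le_tsum (2 * z' + 1))
  rw [planeSum, ← mid_eq]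
  unfold edgeSum
  refine ENNReal.tsum_le_tsum fun q => lintegral_mono fun t => ?_
  exact dens_sec_le _ hp0 E hcm _

end org

/-- The index of the fine edge `q` in the middle plane `z'`. -/
def φe (n n₀ : ℕ) (z' : ℤ) (q : (Fin 2 → ℤ) × Fin 2) : Idx × Fin 3 :=
  ((n₀, emb (Hz n n₀ z') q.1), (2 : Fin 3).succAbove q.2)

theorem φe_injective (n n₀ : ℕ) (z' : ℤ) : Function.Injective (φe n n₀ z') := by
  rintro ⟨ζ, i⟩ ⟨ζ', i'⟩ h
  simp only [φe, Prod.mk.injEq, true_and] at h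
  rw [Prod.mk.injEq]
  exact ⟨emb_injective _ h.1, Fin.succAbove_right_injective h.2⟩

theorem norm_secL_ev (i : Fin 2) : ev ((2 : Fin 3).succAbove i) = secL 2 (Pi.single i (1 : ℝ)) := by
  ext k
  rcases Fin.eq_self_or_eq_succAbove 2 k with rfl | ⟨l, rfl⟩
  · rw [secL_same, ev, Pi.single_eq_of_ne (Fin.succAbove_ne 2 i).symm]
  · rw [secL_succAbove, ev]
    simp only [Pi.single_apply, Fin.succAbove_right_inj]

theorem fInt_φe_le {p : ℝ} (hp : 0 ≤ p) {n n₀ : ℕ} (hn : n + 1 ≤ n₀) (v : V) (F : V → Mat) (z' : ℤ)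
    (q : (Fin 2 → ℤ) × Fin 2) :
    fInt p v F (φe n n₀ z' q) ≤ ENNReal.ofReal (ms n₀) * ∫⁻ t in Ioc (0 : ℝ) 1,
      ‖secD (fun x => cl (F x)) 2 (mid v n z') (ga (oth 2 v) (ms n₀) q + t • gv (ms n₀) q)‖ₑ ^ p := by
  rw [fInt, eInt_plane v (j := q.2) rfl]
  simp only [φe, emb_two, ht_Hz hn, o2_emb]
  refine mul_le_mul' le_rfl (lintegral_mono fun t => ?_)
  set u := ga (oth 2 v) (ms n₀) q + t • gv (ms n₀) q with hu
  have hu' : ga (oth 2 v) (ms n₀) (q.1, q.2) + t • gv (ms n₀) (q.1, q.2) = u := rfl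
  show ENNReal.ofReal (‖cl (F (sec 2 (mid v n z')
    (ga (oth 2 v) (ms n₀) (q.1, q.2) + t • gv (ms n₀) (q.1, q.2)))) (ev ((2 : Fin 3).succAbove q.2))‖ ^ p) ≤ _
  rw [hu', ← ENNReal.ofReal_rpow_of_nonneg (norm_nonneg _) hp, ← ofReal_norm]
  refine ENNReal.rpow_le_rpow (ENNReal.ofReal_le_ofReal ?_) hp
  rw [norm_secL_ev]
  have h1 := (secD (fun x => cl (F x)) 2 (mid v n z') u).le_opNorm (Pi.single q.2 (1 : ℝ))
  rw [Pi.norm_single, norm_one, mul_one] at h1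
  exact h1

theorem edge_φe {n n₀ n₂ : ℕ} (hn : n + 1 ≤ n₀) (hn₂ : n + 1 ≤ n₂) (v : V) (z' : ℤ)
    (q : (Fin 2 → ℤ) × Fin 2) {ζ : Fin 2 → ℤ}
    (hq : InCell (oth 2 v) (ms n₂) (ga (oth 2 v) (ms n₀)) (gv (ms n₀)) q ζ) :
    edge v (φe n n₀ z' q) ⊆ squ v (plq n₂ (emb (Hz n n₂ z') ζ)) := by
  rw [edge_subset_squ (j := q.2) rfl]
  simp only [φe, emb_two, ht_Hz hn, ht_Hz hn₂, o2_emb]
  exact ⟨trivial, hq⟩

theorem edge_φe_core {n n₀ : ℕ} (hn : n + 1 ≤ n₀) {v : V} {z' : ℤ}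
    {q : (Fin 2 → ℤ) × Fin 2} (h : edge v (φe n n₀ z' q) ⊆ core v n) {t : ℝ} (ht : t ∈ Icc (0 : ℝ) 1) :
    ga (oth 2 v) (ms n₀) q + t • gv (ms n₀) q ∈ core2 v n := by
  have h1 := h ((mem_edge_plane (e := φe n n₀ z' q) (j := q.2) rfl).2 ⟨t, ht, rfl⟩)
  rw [mem_core] at h1
  simp only [φe, emb_two, ht_Hz hn, o2_emb, oth_sec] at h1
  exact h1.2

theorem core2_Uq {v : V} {n : ℕ} (hv : ∀ i, 0 ≤ v i ∧ v i < 1 / 2 ^ n) : core2 v n ⊆ Uq := by
  intro u hu l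
  have h1 := hu l
  have h2 := hv ((2 : Fin 3).succAbove l)
  have h3 : (0 : ℝ) < 2 ^ n := by positivity
  have h4 : (0 : ℝ) < 2 / 2 ^ n := by positivity
  have e1 : ((2 : ℝ) ^ n - 3) / 2 ^ n = 1 - 3 / 2 ^ n := by field_simp
  have e2 : (3 : ℝ) / 2 ^ n = 1 / 2 ^ n + 2 / 2 ^ n := by ring
  simp only [oth] at h1
  rw [e1] at h1
  constructor <;> linarith [h1.1, h1.2, h2.1, h2.2]

section sums

variable {n n₂ j : ℕ} {z' : ℤ} {v : V} {f : V → V} {F : V → Mat}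
  {c θ₀ p M κ η t₀ lam δ₁ d e₀ : ℝ} {E : Set V} {D K₀ : Set V}
  {Le : Finset ((Fin 2 → ℤ) × Fin 2)} {I J : Finset (Fin 2 → ℤ)}
  {b : (Fin 2 → ℤ) → (Fin 2 → ℝ)}

variable (h : GrdT (fun u => f (sec 2 c u)) (secD (fun x => cl (F x)) 2 c)
          (sec 2 c ⁻¹' E) ∅ Uq D K₀ p θ₀ M κ η t₀ lam δ₁ d e₀ (ms (n₂ + j)) (2 ^ j)
          (oth 2 v) Le I J b)
include h

/-- **the fine edges of one middle plane outside of the cells** -/
theorem bad_plane (hn : n + 1 ≤ n₂) (hc : c = mid v n z') (hv : ∀ i, 0 ≤ v i ∧ v i < 1 / 2 ^ n)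
    {m : ℕ} (hm : n ≤ m) (hm' : m ≤ n₂) (hpos : ∀ ζ ∈ J, Pos2 n₂ m ζ)
    {P : Finset (Fin 3 → ℤ)}
    (hP : ∀ ζ ∈ J, closedBall (ctr (oth 2 v) (ms n₂) ζ) (ms n₂ / 2) ⊆ core2 v n →
      emb (Hz n n₂ z') ζ ∈ P) {β B : ℝ≥0∞}
    (hβ : ((I \ J).card : ℝ≥0∞) * ENNReal.ofReal (((2 ^ j : ℕ) : ℝ) * ms (n₂ + j)) ^ 2 ≤ β)
    (hB : edgeSum (dens (secD (fun x => cl (F x)) 2 c) p Uq (sec 2 c ⁻¹' E ∪ ∅)) (oth 2 v)
      (ms (n₂ + j)) * ENNReal.ofReal (ms (n₂ + j)) ^ 2 ≤ B) :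
    ∑' q : {q : (Fin 2 → ℤ) × Fin 2 | edge v (φe n (n₂ + j) z' q) ⊆ core v n ∧
        ∀ z ∈ P, ¬ edge v (φe n (n₂ + j) z' q) ⊆ squ v (plq n₂ z)},
      ENNReal.ofReal (1 / 2 ^ (n₂ + j)) * fInt p v F (φe n (n₂ + j) z' q) ≤
        8 * (ENNReal.ofReal M ^ p * β) + B := by
  have hp0 : 0 ≤ p := by linarith [h.p1]
  have hn₀ : n + 1 ≤ n₂ + j := by omega
  set S : Set ((Fin 2 → ℤ) × Fin 2) := {q | edge v (φe n (n₂ + j) z' q) ⊆ core v n ∧
        ∀ z ∈ P, ¬ edge v (φe n (n₂ + j) z' q) ⊆ squ v (plq n₂ z)} with hS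
  have hSU : ∀ q ∈ S, q ∈ edgesIn Uq (oth 2 v) (ms (n₂ + j)) := fun q hq t ht' =>
    core2_Uq hv (edge_φe_core hn₀ hq.1 ht')
  have hSf : S.Finite := (finite_edgesIn isBounded_Uq (oth 2 v) (ms_pos _)).subset hSU
  have h0 : ∑' q : S, ENNReal.ofReal (1 / 2 ^ (n₂ + j)) * fInt p v F (φe n (n₂ + j) z' q) =
      ∑ q ∈ hSf.toFinset, ENNReal.ofReal (1 / 2 ^ (n₂ + j)) * fInt p v F (φe n (n₂ + j) z' q) := by
    have h1 := Finset.tsum_subtype hSf.toFinset (fun q =>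
      ENNReal.ofReal (1 / 2 ^ (n₂ + j)) * fInt p v F (φe n (n₂ + j) z' q))
    rw [← h1]
    exact tsum_congr_set_coe (fun q =>
      ENNReal.ofReal (1 / 2 ^ (n₂ + j)) * fInt p v F (φe n (n₂ + j) z' q)) hSf.coe_toFinset.symm
  rw [h0]
  have h1 := h.s3 hSf.toFinset (fun l hl => hSU l (hSf.mem_toFinset.1 hl)) ?_ hβ
  · have e1 : (1 : ℝ) / 2 ^ (n₂ + j) = ms (n₂ + j) := rfl
    calc ∑ q ∈ hSf.toFinset, ENNReal.ofReal (1 / 2 ^ (n₂ + j)) * fInt p v F (φe n (n₂ + j) z' q)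
        ≤ ∑ q ∈ hSf.toFinset, ENNReal.ofReal (ms (n₂ + j)) ^ 2 * ∫⁻ t in Ioc (0 : ℝ) 1,
            ‖secD (fun x => cl (F x)) 2 c (ga (oth 2 v) (ms (n₂ + j)) q +
              t • gv (ms (n₂ + j)) q)‖ₑ ^ p := by
          refine Finset.sum_le_sum fun q _ => ?_
          rw [e1, sq, mul_assoc, hc]
          exact mul_le_mul' le_rfl (fInt_φe_le hp0 hn₀ v F z' q)
      _ = ENNReal.ofReal (ms (n₂ + j)) ^ 2 * ∑ q ∈ hSf.toFinset, ∫⁻ t in Ioc (0 : ℝ) 1,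
            ‖secD (fun x => cl (F x)) 2 c (ga (oth 2 v) (ms (n₂ + j)) q +
              t • gv (ms (n₂ + j)) q)‖ₑ ^ p := by rw [Finset.mul_sum]
      _ ≤ _ := h1
      _ ≤ 8 * (ENNReal.ofReal M ^ p * β) + B := by
          refine add_le_add ?_ ?_
          · refine mul_le_mul' ?_ le_rfl
            push_cast
            norm_num
          · refine le_trans ?_ hB
            rw [mul_comm]
            refine mul_le_mul' ?_ le_rfl
            unfold edgeSum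
            refine ENNReal.tsum_le_tsum fun q => lintegral_mono fun t => ?_
            unfold dens
            rw [union_empty]
            refine indicator_le_indicator ?_
            exact le_add_self
  · intro q hq ζ hζ hin
    obtain ⟨hq1, hq2⟩ := hSf.mem_toFinset.1 hq
    have hin' : InCell (oth 2 v) (ms n₂) (ga (oth 2 v) (ms (n₂ + j))) (gv (ms (n₂ + j))) q ζ := by
      rwa [ms_add] at hin
    have h2 := edge_φe_core hn₀ hq1 (t := 0) ⟨le_rfl, zero_le_one⟩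
    have h3 := hin' 0 ⟨le_rfl, zero_le_one⟩
    have h4 := cell_core hm hm' (hpos ζ hζ) h3 h2
    exact hq2 _ (hP ζ hζ h4) (edge_φe hn₀ hn v z' q hin')

/-- **the part of one middle plane outside of the cells** -/
theorem area_plane (hn : n + 1 ≤ n₂) (hv : ∀ i, 0 ≤ v i ∧ v i < 1 / 2 ^ n)
    {m : ℕ} (hm : n ≤ m) (hm' : m ≤ n₂) (hpos : ∀ ζ ∈ J, Pos2 n₂ m ζ)
    {P : Finset (Fin 3 → ℤ)}
    (hP : ∀ ζ ∈ J, closedBall (ctr (oth 2 v) (ms n₂) ζ) (ms n₂ / 2) ⊆ core2 v n →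
      emb (Hz n n₂ z') ζ ∈ P) {β B : ℝ≥0∞}
    (hβ : ((I \ J).card : ℝ≥0∞) * ENNReal.ofReal (((2 ^ j : ℕ) : ℝ) * ms (n₂ + j)) ^ 2 ≤ β)
    (hB : ∫⁻ u, dens (secD (fun x => cl (F x)) 2 c) p Uq (sec 2 c ⁻¹' E ∪ ∅) u ≤ B) :
    volume {x | x ∈ core v n ∧
      ∀ z ∈ P, Function.update x 2 (LOC.mid v n z') ∉ squ v (plq n₂ z)} ≤ β + B := by
  set Cs : Set (Fin 2 → ℝ) := ⋃ ζ ∈ J, closedBall (ctr (oth 2 v) (((2 ^ j : ℕ) : ℝ) * ms (n₂ + j)) ζ)
    (((2 ^ j : ℕ) : ℝ) * ms (n₂ + j) / 2) with hCs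
  have hCm : MeasurableSet Cs :=
    Finset.measurableSet_biUnion _ fun ζ _ => measurableSet_closedBall
  set W : Set (Fin 2 → ℝ) := Uq \ Cs with hW
  have hWm : MeasurableSet W := isOpen_Uq.measurableSet.diff hCm
  have hWv : volume W ≤ β + B := by
    have h1 : W ⊆ (sec 2 c ⁻¹' E \ Cs) ∪ (Uq \ (sec 2 c ⁻¹' E ∪ ∅)) := by
      rintro u ⟨hu, huC⟩
      by_cases huE : u ∈ sec 2 c ⁻¹' E
      · exact Or.inl ⟨huE, huC⟩
      · exact Or.inr ⟨hu, fun h' => h'.elim huE (notMem_empty _)⟩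
    refine (measure_mono h1).trans ((measure_union_le _ _).trans (add_le_add ?_ ?_))
    · exact h.volume_diff_le.trans hβ
    · refine le_trans ?_ hB
      rw [lintegral_dens isOpen_Uq.measurableSet (h.Em.union MeasurableSet.empty)]
      calc _ = ∫⁻ x in Uq \ (sec 2 c ⁻¹' E ∪ ∅), 1 := by rw [setLIntegral_const, one_mul]
        _ ≤ _ := lintegral_mono fun x => le_self_add
  set T : Set V := {x | x 2 ∈ Icc (0 : ℝ) 1 ∧ oth 2 x ∈ W} with hT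
  have hothm : Measurable (oth 2 : V → (Fin 2 → ℝ)) :=
    measurable_pi_iff.2 fun l => measurable_pi_apply _
  have hTm : MeasurableSet T :=
    ((measurable_pi_apply 2) measurableSet_Icc).inter (hothm hWm)
  have hsub : {x | x ∈ core v n ∧
      ∀ z ∈ P, Function.update x 2 (LOC.mid v n z') ∉ squ v (plq n₂ z)} ⊆ T := by
    rintro x ⟨hx, hxP⟩
    have hxQ := core_subset hv hx
    have hx2 := (mem_core.1 hx).2
    refine ⟨⟨(hxQ 2).1.le, (hxQ 2).2.le⟩, core2_Uq hv hx2, fun hxC => ?_⟩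
    simp only [hCs, mem_iUnion, ms_add] at hxC
    obtain ⟨ζ, hζ, hxζ⟩ := hxC
    have h4 := cell_core hm hm' (hpos ζ hζ) hxζ hx2
    refine hxP _ (hP ζ hζ h4) ?_
    rw [mem_squ, Function.update_self, emb_two, ht_Hz hn, o2_emb]
    refine ⟨rfl, ?_⟩
    have e1 : oth 2 (Function.update x 2 (mid v n z')) = oth 2 x := by
      ext l
      simp only [oth]
      rw [Function.update_of_ne (Fin.succAbove_ne 2 l)]
    rw [e1]
    exact hxζ
  refine (measure_mono hsub).trans ?_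
  have h5 : volume T = ∫⁻ x, T.indicator 1 x := by rw [lintegral_indicator_one hTm]
  rw [h5, ← lintegral_sec 2 ((measurable_one.indicator hTm).aemeasurable)]
  have h6 : ∀ c' : ℝ, ∫⁻ u, T.indicator (1 : V → ℝ≥0∞) (sec 2 c' u) =
      (Icc (0 : ℝ) 1).indicator (fun _ => volume W) c' := by
    intro c'
    by_cases hc' : c' ∈ Icc (0 : ℝ) 1
    · rw [indicator_of_mem hc', ← lintegral_indicator_one hWm]
      refine lintegral_congr fun u => ?_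
      by_cases hu : u ∈ W
      · rw [indicator_of_mem hu, indicator_of_mem]
        · rfl
        · exact ⟨by rw [sec_same]; exact hc', by rw [oth_sec]; exact hu⟩
      · rw [indicator_of_notMem hu, indicator_of_notMem]
        exact fun h' => hu (by have := h'.2; rwa [oth_sec] at this)
    · rw [indicator_of_notMem hc']
      rw [← lintegral_zero (μ := (volume : Measure (Fin 2 → ℝ)))]
      refine lintegral_congr fun u => ?_
      rw [indicator_of_notMem]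
      exact fun h' => hc' (by have := h'.1; rwa [sec_same] at this)
  simp only [h6]
  rw [lintegral_indicator measurableSet_Icc, setLIntegral_const, Real.volume_Icc]
  simpa using hWv

end sums

end Vale.Agent.P073.LOC330
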